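import Mathlib.AlgebraicTopology.SimplicialSet.Subdivision
import Vale.Agent.P213.Cplx.Chains
import Vale.Agent.P213.Colim.FinPres
import Vale.Agent.P213.Colim.Cocomplete

/-!
# The Street nerve, its left adjoint, vertices of simplices
-/

open CategoryTheory CategoryTheory.Limits Opposite

namespace Vale.Agent.P213

noncomputable section

/-- The cosimplicial ω-category of orientals. -/
def orientals : SimplexCategory ⥤ OCat := ADC.orientalFunctor ⋙ ADC.nuFunctor

/-- The Street nerve: `m`-simplices are the functors from the `m`-th oriental. -/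
def streetNerve : OCat ⥤ SSet.{0} := Presheaf.restrictedULiftYoneda.{0} orientals

instance : SSet.stdSimplex.{0}.HasPointwiseLeftKanExtension orientals := fun _ => inferInstance

set_option backward.isDefEq.respectTransparency.types false in
/-- The left adjoint of the Street nerve. -/
def streetLeft : SSet.{0} ⥤ OCat := SSet.stdSimplex.leftKanExtension orientals

set_option backward.isDefEq.respectTransparency false in
/-- The adjunction of the Street nerve. -/
def streetAdj : streetLeft ⊣ streetNerve :=
  Presheaf.uliftYonedaAdjunction.{0}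
    (SSet.stdSimplex.{0}.leftKanExtension orientals)
    (SSet.stdSimplex.{0}.leftKanExtensionUnit orientals)

instance : streetNerve.IsRightAdjoint := streetAdj.isRightAdjoint

namespace NCat

variable (n : ℕ∞)

/-- The Street nerve of `n`-categories. -/
abbrev nerveFunctor : NCat n ⥤ SSet.{0} := NCat.incl n ⋙ streetNerve

/-- The left adjoint `c_n` of the nerve of `n`-categories. -/
def nerveLeft : SSet.{0} ⥤ NCat n := streetLeft ⋙ NCat.refl n

/-- The adjunction `c_n ⊣ N`. -/
def nerveAdj : nerveLeft n ⊣ nerveFunctor n := streetAdj.comp (NCat.reflAdj n)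

instance : (nerveFunctor n).IsRightAdjoint := (nerveAdj n).isRightAdjoint

end NCat

/-- A simplex of the nerve. -/
def simplexMk {X : OCat} {n : SimplexCategoryᵒᵖ} (F : orientals.obj n.unop ⟶ X) :
    (streetNerve.obj X).obj n := ULift.up F

/-- The functor given by a simplex of the nerve. -/
def simplexHom {X : OCat} {n : SimplexCategoryᵒᵖ} (x : (streetNerve.obj X).obj n) :
    orientals.obj n.unop ⟶ X := ULift.down x

lemma simplex_ext {X : OCat} {n : SimplexCategoryᵒᵖ} {x y : (streetNerve.obj X).obj n}
    (h : simplexHom x = simplexHom y) : x = y := ULift.ext _ _ h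

@[simp] lemma simplexHom_mk {X : OCat} {n : SimplexCategoryᵒᵖ} (F : orientals.obj n.unop ⟶ X) :
    simplexHom (simplexMk F) = F := rfl

lemma simplexHom_map {X : OCat} {n m : SimplexCategoryᵒᵖ} (φ : n ⟶ m)
    (x : (streetNerve.obj X).obj n) :
    simplexHom ((streetNerve.obj X).map φ x) = orientals.map φ.unop ≫ simplexHom x := rfl

lemma simplexHom_app {X Y : OCat} (g : X ⟶ Y) {n : SimplexCategoryᵒᵖ}
    (x : (streetNerve.obj X).obj n) :
    simplexHom ((streetNerve.map g).app n x) = simplexHom x ≫ g := rfl

/-! ### Vertices and edges in `ν` of chains -/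

namespace ADC

variable {P Q : Type} [PartialOrder P] [PartialOrder Q]

/-- The cell of a point. -/
def vert (v : P) : Table (chains P) where
  x k _ := match k with
    | 0 => el fun _ => v
    | _ + 1 => 0
  nonneg k s := by
    cases k
    · exact el_nonneg _
    · exact le_rfl
  aug s := chains_ε_el _
  bdry k s := by cases k <;> simp
  exists_zero := ⟨1, fun k s h => by obtain ⟨j, rfl⟩ := Nat.exists_eq_succ_of_ne_zero (by omega : k ≠ 0); rfl⟩

lemma face_vert (v : P) (i : ℕ) (e : Bool) : (vert v).face i e = vert v := by
  refine Table.ext (funext fun k => funext fun s => ?_)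
  rw [Table.face_x]
  rcases k with _ | k
  · simp only [vert]; split_ifs with h₁ h₂
    · rfl
    · rfl
    · omega
  · simp [vert]

/-- The edge between comparable points. -/
def edge {u v : P} (h : u ≤ v) : Table (chains P) where
  x k s := match k with
    | 0 => bif s then el fun _ => v else el fun _ => u
    | 1 => el ![u, v]
    | _ + 2 => 0
  nonneg k s := by
    rcases k with _ | _ | k
    · cases s <;> exact el_nonneg _
    · exact el_nonneg _
    · exact le_rfl
  aug s := by cases s <;> exact chains_ε_el _
  bdry k s := by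
    rcases k with _ | _ | k
    · have hm : Monotone ![u, v] := Fin.monotone_iff_le_succ.2 fun i => by
        fin_cases i; simpa using h
      show (chains P).d 0 (el ![u, v]) = _
      rw [chains_d_el hm, Fin.sum_univ_two]
      have e0 : ![u, v] ∘ Fin.succ = fun _ => v := by
        funext i; fin_cases i; rfl
      have e1 : ![u, v] ∘ (1 : Fin 2).succAbove = fun _ => u := by
        funext i; fin_cases i; rfl
      simp [e0, e1, sub_eq_add_neg]
    · simp
    · simp
  exists_zero := ⟨2, fun k s hk => by
    obtain ⟨j, rfl⟩ := Nat.exists_eq_add_of_le hk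
    rw [Nat.add_comm 2 j]⟩

lemma src_edge {u v : P} (h : u ≤ v) : (nu (chains P)).src 0 (edge h) = vert u := by
  refine Table.ext (funext fun k => funext fun s => ?_)
  show ((edge h).face 0 false).x k s = _
  rw [Table.face_x]
  rcases k with _ | k <;> simp [edge, vert]

lemma tgt_edge {u v : P} (h : u ≤ v) : (nu (chains P)).tgt 0 (edge h) = vert v := by
  refine Table.ext (funext fun k => funext fun s => ?_)
  show ((edge h).face 0 true).x k s = _
  rw [Table.face_x]
  rcases k with _ | k <;> simp [edge, vert]

lemma map_vert (f : P →o Q) (v : P) : Table.map (chainsMap f) (vert v) = vert (f v) := by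
  refine Table.ext (funext fun k => funext fun s => ?_)
  rcases k with _ | k
  · exact chainsMap_el f (c := fun _ : Fin 1 => v) monotone_const
  · exact map_zero _

open Classical in
/-- A nonnegative chain of points of total weight one is one point. -/
lemma exists_el_of_aug {x : Chain P 0 →₀ ℤ} (h0 : 0 ≤ x) (h1 : (chains P).ε x = 1) :
    ∃ v, x = el fun _ => v := by
  have hs : x.sum (fun _ r => r) = 1 := by
    rw [← h1]
    conv_rhs => rw [← Finsupp.sum_single x]
    rw [map_finsuppSum]
    refine Finsupp.sum_congr fun c _ => ?_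
    rw [← Finsupp.smul_single_one c (x c), map_zsmul,
      show (chains P).ε (Finsupp.single c 1) = 1 from onGen_single _ _, smul_eq_mul, mul_one]
  obtain ⟨c, hc⟩ : ∃ c, c ∈ x.support := by
    refine Finset.nonempty_of_sum_ne_zero (f := fun c => x c) ?_
    rw [show ∑ c ∈ x.support, x c = 1 from hs]
    exact one_ne_zero
  refine ⟨c.1 0, Finsupp.ext fun d => ?_⟩
  have hle : ∀ t : Finset (Chain P 0), t ⊆ x.support → ∑ c ∈ t, x c ≤ 1 := fun t ht =>
    hs ▸ Finset.sum_le_sum_of_subset_of_nonneg ht fun b _ _ => h0 b
  have hpos : ∀ b ∈ x.support, 1 ≤ x b := fun b hb => by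
    have := Finsupp.mem_support_iff.1 hb
    have := h0 b
    simp only [Finsupp.coe_zero, Pi.zero_apply] at this
    omega
  rw [show (fun _ : Fin 1 => c.1 0) = c.1 from funext fun i => by rw [Fin.fin_one_eq_zero i],
    el_val, Finsupp.single_apply]
  split_ifs with hcd
  · subst hcd
    have := hle {c} (by simpa using hc)
    have := hpos c hc
    simp only [Finset.sum_singleton] at *
    omega
  · by_contra hd
    have hd' := Finsupp.mem_support_iff.2 hd
    have := hle {c, d} (by simp [Finset.insert_subset_iff, hc, hd'])
    rw [Finset.sum_pair hcd] at this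
    have := hpos c hc
    have := hpos d hd'
    omega

/-- The end vertices of a cell are points. -/
theorem exists_face_zero (a : Table (chains P)) (e : Bool) : ∃ v, a.face 0 e = vert v := by
  obtain ⟨v, hv⟩ := exists_el_of_aug (a.nonneg 0 e) (a.aug e)
  refine ⟨v, Table.ext (funext fun k => funext fun s => ?_)⟩
  rw [Table.face_x]
  rcases k with _ | k
  · simpa [vert] using hv
  · simp [vert]

end ADC

/-! ### Vertices of simplices -/

variable {X Y : OCat} {n m : SimplexCategoryᵒᵖ}

/-- The `i`-th vertex of a simplex of the nerve. -/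
def vtx (x : (streetNerve.obj X).obj n) (i : Fin (n.unop.len + 1)) : X.Cell :=
  (simplexHom x).map (ADC.vert i)

lemma src_vtx (x : (streetNerve.obj X).obj n) (i : Fin (n.unop.len + 1)) :
    X.src 0 (vtx x i) = vtx x i :=
  ((simplexHom x).map_src 0 _).symm.trans (congrArg _ (ADC.face_vert i 0 false))

lemma tgt_vtx (x : (streetNerve.obj X).obj n) (i : Fin (n.unop.len + 1)) :
    X.tgt 0 (vtx x i) = vtx x i :=
  ((simplexHom x).map_tgt 0 _).symm.trans (congrArg _ (ADC.face_vert i 0 true))

lemma vtx_map (φ : n ⟶ m) (x : (streetNerve.obj X).obj n) (i : Fin (m.unop.len + 1)) :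
    vtx ((streetNerve.obj X).map φ x) i = vtx x (φ.unop.toOrderHom i) :=
  congrArg (simplexHom x).map (ADC.map_vert φ.unop.toOrderHom i)

lemma vtx_app (g : X ⟶ Y) (x : (streetNerve.obj X).obj n) (i : Fin (n.unop.len + 1)) :
    vtx ((streetNerve.map g).app n x) i = g.map (vtx x i) := rfl

/-- Vertices of a simplex are joined upwards by cells. -/
theorem exists_edge (x : (streetNerve.obj X).obj n) {i j : Fin (n.unop.len + 1)} (h : i ≤ j) :
    ∃ a, X.src 0 a = vtx x i ∧ X.tgt 0 a = vtx x j :=
  ⟨(simplexHom x).map (ADC.edge h),
    ((simplexHom x).map_src 0 _).symm.trans (congrArg _ (ADC.src_edge h)),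
    ((simplexHom x).map_tgt 0 _).symm.trans (congrArg _ (ADC.tgt_edge h))⟩

/-- The ends of every cell of a simplex are vertices. -/
theorem exists_vtx_end (x : (streetNerve.obj X).obj n) (a : (orientals.obj n.unop).Cell) :
    (∃ i, X.src 0 ((simplexHom x).map a) = vtx x i) ∧
      ∃ i, X.tgt 0 ((simplexHom x).map a) = vtx x i := by
  obtain ⟨i, hi⟩ := ADC.exists_face_zero (a : ADC.Table (ADC.oriental n.unop.len)) false
  obtain ⟨j, hj⟩ := ADC.exists_face_zero (a : ADC.Table (ADC.oriental n.unop.len)) true
  exact ⟨⟨i, ((simplexHom x).map_src 0 _).symm.trans (congrArg _ hi)⟩,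
    ⟨j, ((simplexHom x).map_tgt 0 _).symm.trans (congrArg _ hj)⟩⟩

/-! ### Filtered colimits -/

/-- The nerve preserves filtered colimits, granted Steiner's theorem for the orientals. -/
theorem streetNerve_preservesFilteredColimits (hU : ADC.FreeUniqueGoal)
    (hE : ADC.FreeExtendGoal) (hO : ∀ m, (ADC.oriental m).IsSteiner) :
    PreservesFilteredColimits streetNerve where
  preserves_filtered_colimits J _ _ :=
    preservesColimitsOfShape_of_evaluation _ _ fun k =>
      have := (ADC.nu_preservesFilteredColimits hU hE (hO k.unop.len)).preserves_filtered_colimits J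
      preservesColimitsOfShape_of_natIso
        (F := coyoneda.obj (op (ADC.nu (ADC.oriental k.unop.len))))
        (NatIso.ofComponents (fun _ => Equiv.ulift.{0}.symm.toIso) fun _ => rfl)

/-- The nerve of `n`-categories preserves filtered colimits, granted Steiner's theorem. -/
theorem NCat.nerveFunctor_preservesFilteredColimits (hU : ADC.FreeUniqueGoal)
    (hE : ADC.FreeExtendGoal) (hO : ∀ m, (ADC.oriental m).IsSteiner) (n : ℕ∞) :
    PreservesFilteredColimits (NCat.nerveFunctor n) where
  preserves_filtered_colimits J _ _ :=
    have := (streetNerve_preservesFilteredColimits hU hE hO).preserves_filtered_colimits J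
    inferInstance

end

end Vale.Agent.P213
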