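import Vale.Agent.P213.Nerve.SubGlue

/-!
# Colours of a gluing along a sieve

The colour of a simplex is the colour of its last vertex under the functor to the poset
`WithBot (V \ A)`.
-/

open CategoryTheory Opposite

namespace Vale.Agent.P213

noncomputable section

open Glue

variable {B : Type} [PartialOrder B] {A V : Set B}

/-- The colours. -/
abbrev Col (A V : Set B) : Type := WithBot {b : B // b ∈ V ∧ b ∉ A}

open Classical in
/-- The colour of a point. -/
def colOf (hA : ∀ a ∈ V, ∀ b ∈ A, a ≤ b → a ∈ A) : V →o Col A V where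
  toFun v := if h : v.1 ∈ A then ⊥ else ((⟨v.1, v.2, h⟩ : {b : B // b ∈ V ∧ b ∉ A}) : Col A V)
  monotone' u v huv := by
    dsimp only
    split_ifs with hu hv hv
    · exact le_rfl
    · exact bot_le
    · exact absurd (hA _ u.2 _ hv huv) hu
    · exact WithBot.coe_le_coe.2 huv

/-- The condition that a colour is absent or lies in `S`. -/
def InCol (S : Set B) (q : Col A V) : Prop :=
  ∀ b : {b : B // b ∈ V ∧ b ∉ A}, q = (b : Col A V) → b.1 ∈ S

lemma inCol_colOf {hA : ∀ a ∈ V, ∀ b ∈ A, a ≤ b → a ∈ A} {S : Set B} (hAS : A ⊆ S) (v : V) :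
    InCol S (colOf hA v) ↔ v.1 ∈ S := by
  by_cases hv : v.1 ∈ A
  · have e : colOf hA v = ⊥ := dif_pos hv
    exact ⟨fun _ => hAS hv, fun _ b hb => absurd (e.symm.trans hb) WithBot.bot_ne_coe⟩
  · have e : colOf hA v = ((⟨v.1, v.2, hv⟩ : {b : B // b ∈ V ∧ b ∉ A}) : Col A V) := dif_neg hv
    refine ⟨fun h => h _ e, fun h b hb => ?_⟩
    rw [← WithBot.coe_injective (e.symm.trans hb)]
    exact h

lemma inCol_mono {S : Set B} (hS : ∀ a ∈ V, ∀ b ∈ S, a ≤ b → a ∈ S) {q q' : Col A V}
    (hq : q ≤ q') (h : InCol S q') : InCol S q := fun b hb => by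
  subst hb
  obtain ⟨b', rfl, hbb⟩ := WithBot.coe_le_iff.1 hq
  exact hS _ b.2.1 _ (h b' rfl) hbb

/-- A colour as an optional element of `B`. -/
def colOpt (q : Col A V) : Option B := Option.map Subtype.val q

omit [PartialOrder B] in
lemma colOpt_iff (S : Set B) (q : Col A V) : (∀ b ∈ colOpt q, b ∈ S) ↔ InCol S q := by
  constructor
  · intro h b hb
    exact h b.1 (by subst hb; rfl)
  · intro h b hb
    obtain ⟨c, hc, rfl⟩ := Option.map_eq_some_iff.1 hb
    exact h c hc

variable {n : ℕ∞}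

/-- Colours of a gluing along a sieve: for a sieve `S` between `A` and `V` the gluing over `S` is
injective on nerves, with image the simplices whose colour is absent or in `S`. -/
theorem exists_colour (hn : 1 ≤ n) (hAV : A ⊆ V) (hA : ∀ a ∈ V, ∀ b ∈ A, a ≤ b → a ∈ A)
    {Z : NCat n} (f : nv A ⟶ (NCat.nerveFunctor n).obj Z) {X : NCat n} (i : Z ⟶ X)
    (φ : nv V ⟶ (NCat.nerveFunctor n).obj X)
    (hX : IsGlue (NCat.nerveFunctor n) (nincl hAV) f i φ) :
    ∃ col : ∀ m, ((NCat.nerveFunctor n).obj X).obj m → Option B,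
      (∀ m x, ∀ b ∈ col m x, b ∈ V ∧ b ∉ A) ∧
      ∀ (S : Set B) (hAS : A ⊆ S) (hSV : S ⊆ V), (∀ a ∈ V, ∀ b ∈ S, a ≤ b → a ∈ S) →
        ∀ {X' : NCat n} (i' : Z ⟶ X') (φ' : nv S ⟶ (NCat.nerveFunctor n).obj X'),
          IsGlue (NCat.nerveFunctor n) (nincl hAS) f i' φ' →
          ∀ a : X' ⟶ X, i' ≫ a = i → φ' ≫ (NCat.nerveFunctor n).map a = nincl hSV ≫ φ →
            Mono ((NCat.nerveFunctor n).map a) ∧ ∀ m (x : ((NCat.nerveFunctor n).obj X).obj m),
              x ∈ Set.range (((NCat.nerveFunctor n).map a).app m) ↔ ∀ b ∈ col m x, b ∈ S := by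
  let G := NCat.nerveFunctor n
  let Qc : NCat n := ⟨posCat (Col A V), posCat.dimLE hn⟩
  let ψ : nv V ⟶ G.obj Qc :=
    { app := fun m => ↾fun x => simplexMk (ADC.toPos ((colOf hA).comp (nchain x)))
      naturality := fun m l θ => by
        refine ConcreteCategory.hom_ext _ _ fun x => simplex_ext ?_
        exact (ADC.toPos_comp θ.unop.toOrderHom ((colOf hA).comp (nchain x))).symm }
  let g : Z ⟶ Qc := ObjectProperty.homMk
    { map := fun _ => posObj ⊥
      map_src := fun j _ => by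
        rcases eq_or_ne j 0 with rfl | hj
        · rfl
        · exact (posCat.src_pos hj _).symm
      map_tgt := fun j _ => by
        rcases eq_or_ne j 0 with rfl | hj
        · rfl
        · exact (posCat.tgt_pos hj _).symm
      map_comp := fun j _ _ _ _ => by
        cases j <;> rfl }
  obtain ⟨π, ⟨hπi, hπφ⟩, -⟩ := hX.univ Qc g ψ (by
    refine sset_hom_ext fun m u => simplex_ext (OCat.hom_ext fun a => ?_)
    have hbot : ∀ j, colOf hA (nchain ((nincl hAV).app m u) j) = ⊥ := fun j =>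
      dif_pos (nchain u j).2
    exact Subtype.ext (Prod.ext (hbot _).symm (hbot _).symm))
  let lab : X.obj.Cell → Col A V := fun a => (π.hom.map a).1.1
  have lab_src : ∀ a, lab (X.obj.src 0 a) = (π.hom.map a).1.1 := fun a => by
    have e : π.hom.map (X.obj.src 0 a) = posObj (π.hom.map a).1.1 := π.hom.map_src 0 a
    have e' := congrArg (fun c : (posCat (Col A V)).Cell => c.1.1) e
    exact e'
  have lab_tgt : ∀ a, lab (X.obj.tgt 0 a) = (π.hom.map a).1.2 := fun a => by
    have e : π.hom.map (X.obj.tgt 0 a) = posObj (π.hom.map a).1.2 := π.hom.map_tgt 0 a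
    have e' := congrArg (fun c : (posCat (Col A V)).Cell => c.1.1) e
    exact e'
  have lab_le : ∀ a, lab (X.obj.src 0 a) ≤ lab (X.obj.tgt 0 a) := fun a => by
    rw [lab_src, lab_tgt]
    exact (π.hom.map a).2
  have lab_Z : ∀ z, lab (i.hom.map z) = ⊥ := fun z =>
    congrArg (fun t : Z ⟶ Qc => (t.hom.map z).1.1) hπi
  have lab_V : ∀ m (x : (nv V).obj m) j, lab (vtx (φ.app m x) j) = colOf hA (nchain x j) := by
    intro m x j
    refine (congrArg (fun t : nv V ⟶ G.obj Qc =>
      ((simplexHom (t.app m x)).map (ADC.vert j)).1.1) hπφ).trans ?_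
    exact congrArg (fun c : {p : Col A V × Col A V // p.1 ≤ p.2} => c.1.1)
      (ADC.toPos_vert ((colOf hA).comp (nchain x)) j)
  refine ⟨fun m x => colOpt (lab (vtx x (Fin.last _))), fun m x b hb => ?_,
    fun S hAS hSV hS X' i' φ' hX' a hai haφ => ?_⟩
  · obtain ⟨c, -, rfl⟩ := Option.map_eq_some_iff.1 hb
    exact c.2
  let p : X.obj.Cell → Prop := fun c => InCol S (lab c)
  have hp : ∀ c, p (X.obj.tgt 0 c) → p (X.obj.src 0 c) := fun c => inCol_mono hS (lab_le c)
  obtain ⟨iS, φS, hiS, hφS, hglue⟩ := exists_subGlue hn hAS hSV hS f i φ hX p hp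
    (fun z b hb => absurd ((lab_Z z).symm.trans hb) WithBot.bot_ne_coe)
    (fun m x j => by
      show InCol S (lab _) ↔ _
      rw [lab_V]
      exact inCol_colOf hAS _)
  obtain ⟨e, ⟨hei, heφ⟩, -⟩ := hX'.univ _ iS φS hglue.w
  obtain ⟨e', ⟨hei', heφ'⟩, -⟩ := hglue.univ _ i' φ' hX'.w
  have he : e ≫ e' = 𝟙 X' := hX'.hom_ext
    (by rw [← Category.assoc, hei, hei', Category.comp_id])
    (by rw [G.map_comp, ← Category.assoc, heφ, heφ', G.map_id, Category.comp_id])
  have he' : e' ≫ e = 𝟙 (NCat.fullSub X p) := hglue.hom_ext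
    (by rw [← Category.assoc, hei', hei, Category.comp_id])
    (by rw [G.map_comp, ← Category.assoc, heφ', heφ, G.map_id, Category.comp_id])
  have ha : a = e ≫ NCat.fullSubIncl X p := hX'.hom_ext
    (by rw [hai, ← Category.assoc, hei, hiS])
    (by rw [haφ, G.map_comp, ← Category.assoc, heφ, hφS])
  have : IsIso e := ⟨e', he, he'⟩
  have hmono : Mono (G.map (NCat.fullSubIncl X p)) := by
    have : ∀ m, Mono ((G.map (NCat.fullSubIncl X p)).app m) := fun m =>
      (mono_iff_injective _).2 (NCat.fullSubIncl_map_injective X p m)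
    exact NatTrans.mono_of_mono_app _
  subst ha
  refine ⟨by rw [G.map_comp]; infer_instance, fun m x => ?_⟩
  rw [colOpt_iff]
  refine Iff.trans ?_ ((NCat.mem_range_fullSubIncl X p x).trans ⟨fun h => h _, fun h j => ?_⟩)
  · constructor
    · rintro ⟨y, rfl⟩
      exact ⟨(G.map e).app m y, by rw [G.map_comp]; rfl⟩
    · rintro ⟨y, rfl⟩
      refine ⟨(G.map e').app m y, ?_⟩
      have h2 := congrArg (fun t : NCat.fullSub X p ⟶ X => (G.map t).app m y)
        (show e' ≫ (e ≫ NCat.fullSubIncl X p) = NCat.fullSubIncl X p by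
          rw [← Category.assoc, he', Category.id_comp])
      rw [G.map_comp] at h2
      exact h2
  · obtain ⟨c, h₁, h₂⟩ := exists_edge x (Fin.le_last j)
    rw [← h₁]
    exact hp c ((congrArg p h₂).mpr h)

end

end Vale.Agent.P213
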