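import Vale.Agent.P213.Glue.Basic
import Vale.Agent.P213.Nerve.Nerve

/-!
# Gluings exist

A pushout in `C` of `c j` is a gluing along `j`, for `c` left adjoint to `G`.
-/

open CategoryTheory CategoryTheory.Limits

namespace Vale.Agent.P213.Glue

universe u

variable {C : Type u} [Category.{0} C] {G : C ⥤ SSet.{0}} {c : SSet.{0} ⥤ C}

/-- A pushout along `c j` is a gluing along `j`. -/
theorem IsGlue.of_isPushout (adj : c ⊣ G) {U V : SSet.{0}} {j : U ⟶ V} {Z X : C}
    {t : c.obj U ⟶ Z} {b : c.obj V ⟶ X} {i : Z ⟶ X} (hp : IsPushout t (c.map j) i b) :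
    IsGlue G j (adj.homEquiv _ _ t) i (adj.homEquiv _ _ b) := by
  refine ⟨by rw [← adj.homEquiv_naturality_right, ← adj.homEquiv_naturality_left, hp.w],
    fun Y g ψ hψ => ?_⟩
  have hc : t ≫ g = c.map j ≫ (adj.homEquiv _ _).symm ψ := by
    apply (adj.homEquiv _ _).injective
    rw [adj.homEquiv_naturality_right, adj.homEquiv_naturality_left, Equiv.apply_symm_apply, hψ]
  refine ⟨hp.desc g _ hc, ⟨hp.inl_desc _ _ _, ?_⟩, fun d hd => hp.hom_ext ?_ ?_⟩
  · rw [← adj.homEquiv_naturality_right, hp.inr_desc, Equiv.apply_symm_apply]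
  · rw [hd.1, hp.inl_desc]
  · rw [hp.inr_desc]
    apply (adj.homEquiv _ _).injective
    rw [Equiv.apply_symm_apply, adj.homEquiv_naturality_right, hd.2]

/-- Gluings exist when `C` has pushouts. -/
theorem exists_isGlue [HasPushouts C] (adj : c ⊣ G) {U V : SSet.{0}} (j : U ⟶ V) {Z : C}
    (f : U ⟶ G.obj Z) : ∃ (X : C) (i : Z ⟶ X) (φ : V ⟶ G.obj X), IsGlue G j f i φ :=
  ⟨_, _, _, by
    simpa using IsGlue.of_isPushout adj
      (IsPushout.of_hasPushout ((adj.homEquiv _ _).symm f) (c.map j))⟩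

end Vale.Agent.P213.Glue

namespace Vale.Agent.P213.NCat

open Glue

/-- The field `exists_glue` of the gluing interface, for `n`-categories. -/
theorem exists_glue (n : ℕ∞) {B : Type} [PartialOrder B] {A V : Set B} (hAV : A ⊆ V) {Z : NCat n}
    (f : nv A ⟶ (nerveFunctor n).obj Z) :
    ∃ (X : NCat n) (i : Z ⟶ X) (φ : nv V ⟶ (nerveFunctor n).obj X),
      IsGlue (nerveFunctor n) (nincl hAV) f i φ :=
  exists_isGlue (nerveAdj n) (nincl hAV) f

end Vale.Agent.P213.NCat
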