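import Vale.Agent.P213.Nerve.Nerve
import Vale.Agent.P213.Glue.Basic

/-!
# Adding a disjoint point
-/

open CategoryTheory CategoryTheory.Limits Opposite Simplicial

namespace Vale.Agent.P213

namespace AddPt

variable {Z : OCat}

/-- Composition in `Z` plus a point. -/
def comp (i : ℕ) : ∀ (a b : Option Z.Cell), a.map (Z.src i) = b.map (Z.tgt i) → Option Z.Cell
  | some a, some b, h => some (Z.comp i a b (Option.some.inj h))
  | _, _, _ => none

/-- `Z` plus a disjoint point. -/
def addPt (Z : OCat) : OCat where
  Cell := Option Z.Cell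
  src i := Option.map (Z.src i)
  tgt i := Option.map (Z.tgt i)
  comp := comp
  src_src i j a := by cases a <;> simp [Z.src_src]
  tgt_tgt i j a := by cases a <;> simp [Z.tgt_tgt]
  src_tgt_lt i j a h := by cases a <;> simp [Z.src_tgt_lt i j _ h]
  src_tgt_ge i j a h := by cases a <;> simp [Z.src_tgt_ge i j _ h]
  tgt_src_lt i j a h := by cases a <;> simp [Z.tgt_src_lt i j _ h]
  tgt_src_ge i j a h := by cases a <;> simp [Z.tgt_src_ge i j _ h]
  exists_dim a := by
    cases a with
    | none => exact ⟨0, rfl⟩
    | some a => exact (Z.exists_dim a).imp fun k hk => congrArg some hk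
  comp_unit_right i a h := by cases a <;> simp [comp, Z.comp_unit_right]
  comp_unit_left i a h := by cases a <;> simp [comp, Z.comp_unit_left]
  src_comp_le i j a b h hj := by
    cases a <;> cases b <;> first
      | exact absurd h (Option.some_ne_none _)
      | exact absurd h.symm (Option.some_ne_none _)
      | simp_all [comp, Z.src_comp_le]
  tgt_comp_le i j a b h hj := by
    cases a <;> cases b <;> first
      | exact absurd h (Option.some_ne_none _)
      | exact absurd h.symm (Option.some_ne_none _)
      | simp_all [comp, Z.tgt_comp_le]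
  src_comp_gt i j a b h h' hj := by
    cases a <;> cases b <;> simp_all [comp]
    exact Z.src_comp_gt i j _ _ _ _ hj
  tgt_comp_gt i j a b h h' hj := by
    cases a <;> cases b <;> simp_all [comp]
    exact Z.tgt_comp_gt i j _ _ _ _ hj
  assoc i a b c h₁ h₂ h₃ h₄ := by
    cases a <;> cases b <;> cases c <;> first
      | rfl
      | (simp_all [comp]; done)
      | exact congrArg some (Z.assoc i _ _ _ _ _ _ _)
  interchange i j a b c d h₁ h₂ h₃ h₄ h₅ h₆ hij := by
    cases a <;> cases b <;> cases c <;> cases d <;> first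
      | rfl
      | (simp_all [comp]; done)
      | exact congrArg some (Z.interchange i j _ _ _ _ _ _ _ _ _ _ hij)

lemma addPt_dimLE {n : ℕ∞} (h : OCat.DimLE n Z) : OCat.DimLE n (addPt Z) := fun k a hk => by
  cases a with
  | none => rfl
  | some a => exact congrArg some (h k a hk)

/-- The inclusion. -/
def inl (Z : OCat) : Z ⟶ addPt Z where
  map := some
  map_src _ _ := rfl
  map_tgt _ _ := rfl
  map_comp _ _ _ _ _ := rfl

/-- The constant functor at the point. -/
def pt (W Z : OCat) : W ⟶ addPt Z where
  map _ := none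
  map_src _ _ := rfl
  map_tgt _ _ := rfl
  map_comp _ _ _ _ _ := rfl

/-- The functor given by one on `Z` and an object. -/
def desc {W : OCat} (g : Z ⟶ W) (w : W.Cell) (hs : ∀ i, W.src i w = w) (ht : ∀ i, W.tgt i w = w) :
    addPt Z ⟶ W where
  map a := a.elim w g.map
  map_src i a := by cases a <;> [exact (hs i).symm; exact g.map_src i _]
  map_tgt i a := by cases a <;> [exact (ht i).symm; exact g.map_tgt i _]
  map_comp i a b h h' := by
    match a, b, h with
    | some a, some b, h => exact g.map_comp i a b _ h'
    | none, none, h =>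
      have := W.comp_unit_right i w (W.tgt_src_ge i i w le_rfl).symm
      simp only [hs i] at this
      exact this.symm
    | some a, none, h => exact nomatch h
    | none, some b, h => exact nomatch h

/-- A functor from an oriental lands in `Z` or is constant at the point. -/
theorem cases_simplex {n : SimplexCategoryᵒᵖ} (x : (streetNerve.obj (addPt Z)).obj n) :
    (∃ y, (streetNerve.map (inl Z)).app n y = x) ∨ ∀ a, (simplexHom x).map a = none := by
  have hiff : ∀ {a : (addPt Z).Cell} {i : ℕ},
      ((addPt Z).src i a = none ↔ a = none) ∧ ((addPt Z).tgt i a = none ↔ a = none) :=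
    fun {a i} => by cases a <;> simp [addPt]
  have hv : ∀ i j, vtx x i = none → vtx x j = none := fun i j hi => by
    rcases le_total i j with hij | hij
    · obtain ⟨a, h₁, h₂⟩ := exists_edge x hij
      rw [← h₂, hiff.2, ← hiff.1, h₁]
      exact hi
    · obtain ⟨a, h₁, h₂⟩ := exists_edge x hij
      rw [← h₁, hiff.1, ← hiff.2, h₂]
      exact hi
  have hcell : ∀ a, (simplexHom x).map a = none ↔ vtx x 0 = none := fun a => by
    obtain ⟨i, hi⟩ := (exists_vtx_end x a).1
    rw [← (hiff (i := 0)).1, hi]
    exact ⟨hv i 0, hv 0 i⟩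
  by_cases h0 : vtx x 0 = none
  · exact Or.inr fun a => (hcell a).2 h0
  · left
    have hsome : ∀ a, ∃ z, (simplexHom x).map a = some z := fun a => by
      cases h : (simplexHom x).map a with
      | none => exact absurd ((hcell a).1 h) h0
      | some z => exact ⟨z, rfl⟩
    choose z hz using hsome
    refine ⟨simplexMk (X := Z)
      { map := z
        map_src := fun i a => Option.some.inj ?_
        map_tgt := fun i a => Option.some.inj ?_
        map_comp := fun i a b h h' => Option.some.inj ?_ }, simplex_ext (OCat.hom_ext fun a =>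
          (hz a).symm)⟩
    · rw [← hz, (simplexHom x).map_src, hz]; rfl
    · rw [← hz, (simplexHom x).map_tgt, hz]; rfl
    · rw [← hz, (simplexHom x).map_comp i a b h ((simplexHom x).composable h)]
      exact (OCat.comp_congr (hz a) (hz b) _).trans rfl

lemma ne_pt {n : SimplexCategoryᵒᵖ} (y : (streetNerve.obj Z).obj n)
    (x : (streetNerve.obj (addPt Z)).obj n) (hx : ∀ a, (simplexHom x).map a = none) :
    (streetNerve.map (inl Z)).app n y ≠ x := fun h => by
  have := hx (ADC.vert (0 : Fin (n.unop.len + 1)))
  rw [← h] at this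
  exact nomatch this

end AddPt

namespace ADC

/-- All cells of `O_0` are the point. -/
lemma eq_vert_of_len_zero (a : Table (oriental 0)) : a = vert 0 := by
  refine Table.ext (funext fun k => funext fun s => ?_)
  rcases k with _ | k
  · obtain ⟨v, hv⟩ := exists_el_of_aug (a.nonneg 0 s) (a.aug s)
    rw [hv]
    exact congrArg el (funext fun _ => Fin.ext (by omega))
  · refine Finsupp.ext fun c => ?_
    have := c.2 (show (0 : Fin (k + 2)) < 1 by simp)
    omega

end ADC

open Glue AddPt

variable {n : ℕ∞}

/-- Gluing a disjoint point adds a disjoint point to the nerve. -/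
theorem isPushout_point {B : Type} [PartialOrder B] (T : B) {Z : NCat n}
    (f : nv (∅ : Set B) ⟶ (NCat.nerveFunctor n).obj Z) {X : NCat n} (i : Z ⟶ X)
    (φ : nv {T} ⟶ (NCat.nerveFunctor n).obj X)
    (hX : IsGlue (NCat.nerveFunctor n) (nincl (Set.empty_subset {T})) f i φ) :
    IsPushout (nincl (Set.empty_subset {T})) f φ ((NCat.nerveFunctor n).map i) := by
  let G := NCat.nerveFunctor n
  have hempty : ∀ m (u : (nv (∅ : Set B)).obj m), False := fun m u =>
    ((u : ComposableArrows (∅ : Set B) _).obj 0).2
  have hsub : ∀ m (u v : (nv ({T} : Set B)).obj m), u = v := fun m u v =>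
    nerve.ext_of_isThin (funext fun j => Subtype.ext
      (((u : ComposableArrows ({T} : Set B) _).obj j).2.trans
        ((v : ComposableArrows ({T} : Set B) _).obj j).2.symm))
  let Y : NCat n := ⟨addPt Z.obj, addPt_dimLE Z.property⟩
  let g : Z ⟶ Y := ObjectProperty.homMk (inl Z.obj)
  let ψ : nv {T} ⟶ G.obj Y :=
    { app := fun m => ↾fun _ => simplexMk (pt (orientals.obj m.unop) Z.obj)
      naturality := fun _ _ _ => rfl }
  obtain ⟨h, ⟨hi, hφ⟩, -⟩ := hX.univ Y g ψ (sset_hom_ext fun m u => (hempty m u).elim)
  -- the point simplex and the inverse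
  let P₀ : nerve ({T} : Set B) _⦋0⦌ := ComposableArrows.mk₀ (⟨T, rfl⟩ : ({T} : Set B))
  let w := vtx (φ.app _ P₀) 0
  have hws : ∀ j, X.obj.src j w = w := fun j =>
    ((simplexHom (φ.app _ P₀)).map_src j _).symm.trans (congrArg _ (ADC.face_vert _ j false))
  have hwt : ∀ j, X.obj.tgt j w = w := fun j =>
    ((simplexHom (φ.app _ P₀)).map_tgt j _).symm.trans (congrArg _ (ADC.face_vert _ j true))
  let k : Y ⟶ X := ObjectProperty.homMk (desc i.hom w hws hwt)
  have hψk : ψ ≫ G.map k = φ := by
    refine sset_hom_ext fun m u => simplex_ext (OCat.hom_ext fun a => ?_)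
    let θ : op ⦋0⦌ ⟶ m := (SimplexCategory.mkHom
      (⟨fun _ => 0, monotone_const⟩ : Fin (m.unop.len + 1) →o Fin 1)).op
    have hu : (nv ({T} : Set B)).map θ P₀ = u := hsub _ _ _
    have e : simplexHom (φ.app m ((nv ({T} : Set B)).map θ P₀)) =
        orientals.map θ.unop ≫ simplexHom (φ.app _ P₀) := by
      rw [NatTrans.naturality_apply]
      rfl
    subst hu
    rw [e]
    show w = (simplexHom (φ.app _ P₀)).map (ADC.Table.map _ a)
    exact congrArg _ (ADC.eq_vert_of_len_zero _).symm
  have hk : h ≫ k = 𝟙 X := hX.hom_ext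
    (by rw [← Category.assoc, hi, Category.comp_id]; exact ObjectProperty.hom_ext _ rfl)
    (by rw [G.map_comp, ← Category.assoc, hφ, hψk, G.map_id, Category.comp_id])
  have hinj : ∀ m, Function.Injective ((G.map h).app m) := fun m => by
    refine Function.LeftInverse.injective (g := (G.map k).app m) fun x => ?_
    have := congrArg (fun t : X ⟶ X => (G.map t).app m x) hk
    simpa using this
  have hiy : ∀ m y, (G.map h).app m ((G.map i).app m y) =
      (streetNerve.map (inl Z.obj)).app m y := fun m y => by
    have := congrArg (fun t : Z ⟶ Y => (G.map t).app m y) hi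
    simp only [G.map_comp] at this
    exact this
  have hφu : ∀ m u, (G.map h).app m (φ.app m u) = simplexMk (pt (orientals.obj m.unop) Z.obj) :=
    fun m u => ConcreteCategory.congr_hom (congr_app hφ m) u
  have w₀ : nincl (Set.empty_subset {T}) ≫ φ = f ≫ G.map i := hX.w.symm
  -- covering and disjointness
  have cover : ∀ m x, (∃ y, (G.map i).app m y = x) ∨ ∃ u, φ.app m u = x := fun m x => by
    rcases cases_simplex ((G.map h).app m x) with ⟨y, hy⟩ | hpt
    · exact Or.inl ⟨y, hinj m ((hiy m y).trans hy)⟩
    · refine Or.inr ⟨(show Monotone fun _ : Fin (m.unop.len + 1) => (⟨T, rfl⟩ : ({T} : Set B))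
        from monotone_const).functor, hinj m ((hφu m _).trans (simplex_ext ?_))⟩
      exact OCat.hom_ext fun a => (hpt a).symm
  have disj : ∀ m y u, (G.map i).app m y ≠ φ.app m u := fun m y u e =>
    ne_pt y _ (fun _ => rfl) ((hiy m y).symm.trans ((congrArg _ e).trans (hφu m u)))
  have hiinj : ∀ m, Function.Injective ((G.map i).app m) := fun m y y' e => by
    have := (hiy m y).symm.trans ((congrArg _ e).trans (hiy m y'))
    exact simplex_ext (OCat.hom_ext fun a =>
      Option.some.inj (congrArg (fun t => (simplexHom t).map a) this))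
  have key : ∀ c : PushoutCocone (nincl (Set.empty_subset {T})) f, ∃ d : G.obj X ⟶ c.pt,
      φ ≫ d = c.inl ∧ G.map i ≫ d = c.inr := by
    intro c
    have hdef : ∀ m x, ∃ z : c.pt.obj m, (∀ y, (G.map i).app m y = x → z = c.inr.app m y) ∧
        ∀ u, φ.app m u = x → z = c.inl.app m u := by
      intro m x
      rcases cover m x with ⟨y, rfl⟩ | ⟨u, rfl⟩
      · exact ⟨c.inr.app m y, fun y' e => by rw [hiinj m e],
          fun u e => absurd e.symm (disj m y u)⟩
      · exact ⟨c.inl.app m u, fun y e => absurd e (disj m y u),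
          fun u' _ => by rw [hsub m u u']⟩
    choose z hz hz' using hdef
    refine ⟨{ app := fun m => ↾(z m), naturality := fun m l θ => ?_ },
      sset_hom_ext fun m u => hz' m _ u rfl, sset_hom_ext fun m y => hz m _ y rfl⟩
    refine ConcreteCategory.hom_ext _ _ fun x => ?_
    change z l ((G.obj X).map θ x) = c.pt.map θ (z m x)
    rcases cover m x with ⟨y, rfl⟩ | ⟨u, rfl⟩
    · rw [hz m _ y rfl, hz l _ ((G.obj Z).map θ y) (NatTrans.naturality_apply (G.map i) θ y),
        NatTrans.naturality_apply]
    · rw [hz' m _ u rfl, hz' l _ ((nv ({T} : Set B)).map θ u) (NatTrans.naturality_apply φ θ u),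
        NatTrans.naturality_apply]
  choose d hd hd' using key
  refine ⟨⟨w₀⟩, ⟨PushoutCocone.IsColimit.mk w₀ d hd hd' fun c t hl hr => ?_⟩⟩
  refine sset_hom_ext fun m x => ?_
  rcases cover m x with ⟨y, rfl⟩ | ⟨u, rfl⟩
  · exact (ConcreteCategory.congr_hom (congr_app hr m) y).trans
      (ConcreteCategory.congr_hom (congr_app (hd' c) m) y).symm
  · exact (ConcreteCategory.congr_hom (congr_app hl m) u).trans
      (ConcreteCategory.congr_hom (congr_app (hd c) m) u).symm

end Vale.Agent.P213
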