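import Vale.Agent.P213.Cplx.Chains
import Mathlib.Order.UpperLower.Basic
import Mathlib.Tactic.Linarith

/-!
# Cells of the complex of chains are supported below their target object

A cell whose `0`-target lies in a lower set is made of chains inside that set.  Only positivity
and the first vertices of chains are used.
-/

noncomputable section

namespace Vale.Agent.P213.ADC

variable {P : Type} [PartialOrder P]

/-- The last vertex decides membership in a lower set. -/
lemma mem_of_last {S : Set P} (hS : IsLowerSet S) {k : ℕ} {c : Chain P k}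
    (h : c.1 (Fin.last k) ∈ S) (i : Fin (k + 1)) : c.1 i ∈ S :=
  hS (c.2.monotone (Fin.le_last i)) h

open Classical in
lemma bdryEl_apply {k : ℕ} (a : Chain P (k + 1)) (b : Chain P k) :
    bdryEl a.1 b = ∑ i : Fin (k + 2), if face a.1 i = b.1 then (-1 : ℤ) ^ (i : ℕ) else 0 := by
  rw [bdryEl, Finsupp.finsetSum_apply]
  refine Finset.sum_congr rfl fun i _ => ?_
  rw [el_of_strictMono (a.2.comp (Fin.strictMono_succAbove i)), Finsupp.smul_apply,
    Finsupp.single_apply]
  split_ifs with h₁ h₂ <;> simp_all [Subtype.ext_iff]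

lemma chains_d_apply {k : ℕ} (x : Chain P (k + 1) →₀ ℤ) (b : Chain P k) :
    (chains P).d k x b = ∑ a ∈ x.support, x a * bdryEl a.1 b := by
  show Finsupp.linearCombination ℤ (fun a : Chain P (k + 1) => bdryEl a.1) x b = _
  rw [Finsupp.linearCombination_apply, Finsupp.sum, Finsupp.finsetSum_apply]
  simp

lemma bdryEl_drop_first {k : ℕ} (c : Chain P (k + 1)) (b : Chain P k)
    (hb : b.1 = face c.1 0) : bdryEl c.1 b = 1 := by
  classical
  rw [bdryEl_apply, Finset.sum_eq_single (0 : Fin (k + 2))]
  · simp [hb]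
  · intro i _ hi
    rw [if_neg]
    intro h
    refine hi (Fin.succAbove_left_injective (funext fun p => c.2.injective ?_))
    exact congrFun (h.trans hb) p
  · exact fun h => absurd (Finset.mem_univ _) h

/-- The main step: a positive chain with nonpositive boundary outside a lower set lies inside. -/
lemma supported_of_bdry_nonpos {S : Set P} (hS : IsLowerSet S) {k : ℕ}
    (x : Chain P (k + 1) →₀ ℤ) (hx : 0 ≤ x)
    (hd : ∀ b : Chain P k, b.1 (Fin.last k) ∉ S → (chains P).d k x b ≤ 0)
    (c : Chain P (k + 1)) (hc : x c ≠ 0) : c.1 (Fin.last (k + 1)) ∈ S := by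
  classical
  by_contra hcS
  set s := x.support.filter fun a => a.1 (Fin.last (k + 1)) ∉ S with hs
  have hne : (s.image fun a => a.1 0).Nonempty :=
    ⟨c.1 0, Finset.mem_image.2 ⟨c, by simp [hs, hc, hcS], rfl⟩⟩
  obtain ⟨p, hp, hmax⟩ := (s.image fun a => a.1 0).exists_maximal hne
  obtain ⟨a₀, ha₀, rfl⟩ := Finset.mem_image.1 hp
  obtain ⟨ha₀x, ha₀S⟩ := Finset.mem_filter.1 ha₀
  let b : Chain P k := ⟨face a₀.1 0, a₀.2.comp (Fin.strictMono_succAbove 0)⟩
  have hblast : b.1 (Fin.last k) = a₀.1 (Fin.last (k + 1)) := by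
    show a₀.1 ((0 : Fin (k + 2)).succAbove (Fin.last k)) = _
    rw [Fin.succAbove_zero, Fin.succ_last]
  have hsum := hd b (hblast ▸ ha₀S)
  rw [chains_d_apply] at hsum
  have hpos : ∀ a, 0 ≤ x a := fun a => hx a
  have hterm : 0 < x a₀ * bdryEl a₀.1 b := by
    rw [bdryEl_drop_first a₀ b rfl, mul_one]
    exact lt_of_le_of_ne (hpos a₀) (Ne.symm (Finsupp.mem_support_iff.1 ha₀x))
  obtain ⟨a, hax, hneg⟩ : ∃ a ∈ x.support, x a * bdryEl a.1 b < 0 := by
    by_contra hcon
    push Not at hcon
    have := Finset.single_le_sum (f := fun a => x a * bdryEl a.1 b) hcon ha₀x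
    linarith
  have hbd : bdryEl a.1 b < 0 := neg_of_mul_neg_right hneg (hpos a)
  rw [bdryEl_apply] at hbd
  obtain ⟨i, -, hi⟩ := Finset.exists_lt_of_sum_lt (g := fun _ : Fin (k + 2) => (0 : ℤ))
    (by simpa only [Finset.sum_const_zero] using hbd)
  split_ifs at hi with hf
  · have hi0 : i ≠ 0 := by
      rintro rfl
      simp at hi
    have haS : a.1 (Fin.last (k + 1)) ∉ S := fun h => by
      apply ha₀S
      rw [← hblast, ← hf]
      exact mem_of_last hS h _
    have h0 : a.1 0 = a₀.1 (Fin.succ 0) := by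
      have := congrFun hf 0
      simp only [face, Function.comp_apply, Fin.succAbove_ne_zero_zero hi0, b,
        Fin.succAbove_zero] at this
      exact this
    have hlt : a₀.1 0 < a.1 0 := h0 ▸ a₀.2 (Fin.succ_pos _)
    exact not_lt_of_ge (hmax (Finset.mem_image.2 ⟨a, Finset.mem_filter.2 ⟨hax, haS⟩, rfl⟩)
      hlt.le) hlt
  · exact lt_irrefl _ hi

namespace Table

/-- A cell whose `0`-target is in a lower set has all its chains in it. -/
theorem supported {S : Set P} (hS : IsLowerSet S) (t : Table (chains P))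
    (h0 : ∀ c : Chain P 0, t.x 0 true c ≠ 0 → c.1 0 ∈ S) :
    ∀ (k : ℕ) (s : Bool) (c : Chain P k), t.x k s c ≠ 0 → ∀ i, c.1 i ∈ S := by
  have hstep : ∀ k, (∀ c : Chain P k, t.x k true c ≠ 0 → c.1 (Fin.last k) ∈ S) →
      ∀ s (c : Chain P (k + 1)), t.x (k + 1) s c ≠ 0 → c.1 (Fin.last (k + 1)) ∈ S := by
    intro k hk s c hc
    refine supported_of_bdry_nonpos hS _ (t.nonneg (k + 1) s) (fun b hb => ?_) c hc
    rw [t.bdry, Finsupp.sub_apply, show t.x k true b = 0 from by_contra fun h => hb (hk b h),
      zero_sub]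
    exact neg_nonpos.2 (t.nonneg k false b)
  have htgt : ∀ k (c : Chain P k), t.x k true c ≠ 0 → c.1 (Fin.last k) ∈ S := by
    intro k
    induction k with
    | zero => exact h0
    | succ k ih => exact hstep k ih true
  have hall : ∀ k s (c : Chain P k), t.x k s c ≠ 0 → c.1 (Fin.last k) ∈ S := by
    intro k s c hc
    cases k with
    | succ k => exact hstep k (htgt k) s c hc
    | zero =>
      cases s
      · by_contra hcS
        have hd := t.bdry 0 true
        have hval : (chains P).d 0 (t.x 1 true) c < 0 := by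
          rw [hd, Finsupp.sub_apply, show t.x 0 true c = 0 from by_contra fun h => hcS (h0 c h),
            zero_sub]
          exact neg_neg_of_pos (lt_of_le_of_ne (t.nonneg 0 false c) (Ne.symm hc))
        rw [chains_d_apply] at hval
        obtain ⟨a, ha, hlt⟩ := Finset.exists_lt_of_sum_lt (g := fun _ => (0 : ℤ))
          (by simpa using hval)
        classical
        have hb : bdryEl a.1 c < 0 := neg_of_mul_neg_right hlt (t.nonneg 1 true a)
        rw [bdryEl_apply] at hb
        obtain ⟨i, -, hi⟩ := Finset.exists_lt_of_sum_lt (g := fun _ : Fin 2 => (0 : ℤ))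
          (by simpa only [Finset.sum_const_zero] using hb)
        split_ifs at hi with hf
        · refine hcS ?_
          rw [← hf]
          exact mem_of_last hS (hstep 0 (htgt 0) true a (Finsupp.mem_support_iff.1 ha)) _
        · exact lt_irrefl _ hi
      · exact h0 c hc
  exact fun k s c hc => mem_of_last hS (hall k s c hc)

/-- Each end in degree `0` is a single vertex. -/
theorem exists_vertex (t : Table (chains P)) (s : Bool) :
    ∃ v : Chain P 0, t.x 0 s = Finsupp.single v 1 := by
  have h := t.aug s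
  change Finsupp.linearCombination ℤ (fun _ : Chain P 0 => (1 : ℤ)) (t.x 0 s) = 1 at h
  rw [Finsupp.linearCombination_apply, Finsupp.sum] at h
  simp only [smul_eq_mul, mul_one] at h
  have hp : ∀ a, 0 ≤ t.x 0 s a := t.nonneg 0 s
  obtain ⟨v, hv, hv0⟩ : ∃ v ∈ (t.x 0 s).support, t.x 0 s v ≠ 0 := by
    refine Finset.exists_ne_zero_of_sum_ne_zero ?_
    rw [h]
    exact one_ne_zero
  refine ⟨v, Finsupp.ext fun a => ?_⟩
  classical
  rw [Finsupp.single_apply]
  rw [← Finset.add_sum_erase _ _ hv] at h
  have h1 : 0 < t.x 0 s v := lt_of_le_of_ne (hp v) (Ne.symm hv0)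
  have h2 : 0 ≤ ∑ x ∈ (t.x 0 s).support.erase v, t.x 0 s x :=
    Finset.sum_nonneg fun x _ => hp x
  split_ifs with hav
  · subst hav
    omega
  · by_contra hne
    have h3 := Finset.single_le_sum (f := fun x => t.x 0 s x) (fun x _ => hp x)
      (Finset.mem_erase.2 ⟨fun e => hav e.symm, Finsupp.mem_support_iff.2 hne⟩)
    have h4 : 0 < t.x 0 s a := lt_of_le_of_ne (hp a) (Ne.symm hne)
    omega

/-- The `0`-source is below the `0`-target. -/
theorem vertex_le (t : Table (chains P)) {u v : Chain P 0}
    (hu : t.x 0 false = Finsupp.single u 1) (hv : t.x 0 true = Finsupp.single v 1) :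
    u.1 0 ≤ v.1 0 := by
  refine supported (isLowerSet_Iic (v.1 0)) t (fun c hc => ?_) 0 false u ?_ 0
  · rw [hv] at hc
    classical
    obtain rfl : c = v := by
      by_contra hne
      simp [Finsupp.single_apply, Ne.symm hne] at hc
    exact le_rfl
  · simp [hu]

/-- A monotone map fixing a lower set pointwise fixes the cells with `0`-target in it. -/
theorem map_eq_self {S : Set P} (hS : IsLowerSet S) (t : Table (chains P))
    (h0 : ∀ c : Chain P 0, t.x 0 true c ≠ 0 → c.1 0 ∈ S) (f : P →o P)
    (hf : ∀ x ∈ S, f x = x) : Table.map (chainsMap f) t = t := by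
  refine Table.ext (funext fun k => funext fun s => ?_)
  show (chainsMap f).f k (t.x k s) = t.x k s
  have key : ∀ c ∈ (t.x k s).support,
      (chainsMap f).f k (Finsupp.single c (t.x k s c)) = Finsupp.single c (t.x k s c) := by
    intro c hc
    have hfix : (⇑f ∘ c.1) = c.1 :=
      funext fun i => hf _ (supported hS t h0 k s c (Finsupp.mem_support_iff.1 hc) i)
    rw [show Finsupp.single c (t.x k s c) = (t.x k s c) • Finsupp.single c (1 : ℤ) by simp,
      map_zsmul]
    refine congrArg (t.x k s c • ·) ?_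
    exact (chainsMap_gen f c).trans (by rw [hfix, el_val])
  conv_lhs => rw [← Finsupp.sum_single (t.x k s), Finsupp.sum, map_sum]
  rw [Finset.sum_congr rfl key]
  exact Finsupp.sum_single _

end Table

end Vale.Agent.P213.ADC
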