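import Vale.Agent.P213.Nerve.Nerve
import Vale.Agent.P213.Nerve.Support

/-!
# Cells with target below `k` are fixed by clamping at `k`
-/

noncomputable section

namespace Vale.Agent.P213.ADC

/-- Clamping at `k`. -/
def clamp {P : Type} [LinearOrder P] (k : P) : P →o P :=
  ⟨fun x => min x k, fun _ _ h => min_le_min_right k h⟩

theorem map_clamp_eq {m : ℕ} (a : Table (oriental m)) (k v : Fin (m + 1))
    (hv : a.face 0 true = vert v) (hvk : v ≤ k) : Table.map (chainsMap (clamp k)) a = a := by
  refine Table.map_eq_self (isLowerSet_Iic k) a (fun c hc => ?_) (clamp k) fun x hx => min_eq_left hx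
  have h : a.x 0 true = el fun _ => v := by
    simpa [vert] using congrArg (fun t : Table (oriental m) => t.x 0 true) hv
  rw [h, el_of_strictMono ((Subsingleton.strictMono (fun _ : Fin 1 => v)))] at hc
  obtain rfl := (Finsupp.single_apply_ne_zero.1 hc).1
  exact hvk

end Vale.Agent.P213.ADC
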