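import Vale.Agent.P213.Basic.OCat

/-!
# A partial order as a strict ω-category

Cells are comparable pairs; everything above dimension one is an identity.
-/

open CategoryTheory

namespace Vale.Agent.P213

variable {Q R : Type} [PartialOrder Q] [PartialOrder R]

/-- The endpoint pair `(v, v)` as a comparable pair. -/
def posObj (v : Q) : {p : Q × Q // p.1 ≤ p.2} := ⟨(v, v), le_rfl⟩

/-- A partial order as a strict ω-category. -/
def posCat (Q : Type) [PartialOrder Q] : OCat where
  Cell := {p : Q × Q // p.1 ≤ p.2}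
  src i a := if i = 0 then posObj a.1.1 else a
  tgt i a := if i = 0 then posObj a.1.2 else a
  comp i a b h :=
    if hi : i = 0 then ⟨(b.1.1, a.1.2), by
      simp only [hi, if_true, posObj, Subtype.mk.injEq, Prod.mk.injEq] at h
      exact b.2.trans (h.1.symm.le.trans a.2)⟩
    else a
  src_src i j a := by
    rcases Nat.eq_zero_or_pos i with rfl | hi <;> rcases Nat.eq_zero_or_pos j with rfl | hj <;>
      (simp_all [posObj, Nat.pos_iff_ne_zero, min_def] <;> grind)
  tgt_tgt i j a := by
    rcases Nat.eq_zero_or_pos i with rfl | hi <;> rcases Nat.eq_zero_or_pos j with rfl | hj <;>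
      (simp_all [posObj, Nat.pos_iff_ne_zero, min_def] <;> grind)
  src_tgt_lt i j a h := by
    have hj : j ≠ 0 := by omega
    simp [hj]
  src_tgt_ge i j a h := by
    by_cases hi : i = 0
    · simp [hi, show j = 0 by omega, posObj]
    · simp [hi]
  tgt_src_lt i j a h := by
    have hj : j ≠ 0 := by omega
    simp [hj]
  tgt_src_ge i j a h := by
    by_cases hi : i = 0
    · simp [hi, show j = 0 by omega, posObj]
    · simp [hi]
  exists_dim a := ⟨1, rfl⟩
  comp_unit_right i a h := by
    by_cases hi : i = 0 <;> simp [hi, posObj]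
  comp_unit_left i a h := by
    by_cases hi : i = 0
    · simp [hi, posObj]
    · simp [hi]
  src_comp_le i j a b h hj := by
    by_cases hi : i = 0
    · simp [hi, show j = 0 by omega, posObj]
    · simp only [hi, if_false] at h
      subst h
      simp [hi]
  tgt_comp_le i j a b h hj := by
    by_cases hi : i = 0
    · simp [hi, show j = 0 by omega, posObj]
    · simp [hi]
  src_comp_gt i j a b h h' hj := by
    have hj0 : j ≠ 0 := by omega
    simp [hj0]
  tgt_comp_gt i j a b h h' hj := by
    have hj0 : j ≠ 0 := by omega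
    simp [hj0]
  assoc i a b c h₁ h₂ h₃ h₄ := by
    by_cases hi : i = 0 <;> simp [hi]
  interchange i j a b c d h₁ h₂ h₃ h₄ h₅ h₆ hij := by
    have hj0 : j ≠ 0 := by omega
    simp [hj0]

namespace posCat

lemma src_zero (a : (posCat Q).Cell) : (posCat Q).src 0 a = posObj a.1.1 := rfl

lemma tgt_zero (a : (posCat Q).Cell) : (posCat Q).tgt 0 a = posObj a.1.2 := rfl

lemma src_pos {i : ℕ} (hi : i ≠ 0) (a : (posCat Q).Cell) : (posCat Q).src i a = a := if_neg hi

lemma tgt_pos {i : ℕ} (hi : i ≠ 0) (a : (posCat Q).Cell) : (posCat Q).tgt i a = a := if_neg hi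

lemma dimLE {n : ℕ∞} (hn : 1 ≤ n) : OCat.DimLE n (posCat Q) := fun k a hk => by
  refine src_pos ?_ a
  rintro rfl
  exact absurd (hn.trans hk) (by simp)

/-- Monotone maps act on the associated ω-categories. -/
def map (f : Q →o R) : posCat Q ⟶ posCat R where
  map a := ⟨(f a.1.1, f a.1.2), f.monotone a.2⟩
  map_src i a := by
    by_cases hi : i = 0
    · subst hi; rfl
    · exact (congrArg (fun c : (posCat Q).Cell => (⟨(f c.1.1, f c.1.2), f.monotone c.2⟩ :
        (posCat R).Cell)) (src_pos hi a)).trans (src_pos hi _).symm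
  map_tgt i a := by
    by_cases hi : i = 0
    · subst hi; rfl
    · exact (congrArg (fun c : (posCat Q).Cell => (⟨(f c.1.1, f c.1.2), f.monotone c.2⟩ :
        (posCat R).Cell)) (tgt_pos hi a)).trans (tgt_pos hi _).symm
  map_comp i a b h h' := by
    by_cases hi : i = 0
    · subst hi; rfl
    · refine Subtype.ext ?_
      simp [posCat, hi]

/-- A functor into `posCat Q` is determined by the images of the endpoints. -/
lemma hom_ext {X : OCat} {F G : X ⟶ posCat Q}
    (h : ∀ a, X.src 0 a = a → F.map a = G.map a) : F = G := by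
  refine OCat.hom_ext fun a => ?_
  have hs : X.src 0 (X.src 0 a) = X.src 0 a := by rw [X.src_src, min_self]
  have ht : X.src 0 (X.tgt 0 a) = X.tgt 0 a := X.src_tgt_ge 0 0 a le_rfl
  have h1 := h _ hs
  have h2 := h _ ht
  rw [F.map_src, G.map_src, src_zero, src_zero] at h1
  rw [F.map_tgt, G.map_tgt, tgt_zero, tgt_zero] at h2
  have e1 := congrArg (fun c : {p : Q × Q // p.1 ≤ p.2} => c.1.1) h1
  have e2 := congrArg (fun c : {p : Q × Q // p.1 ≤ p.2} => c.1.1) h2
  exact Subtype.ext (Prod.ext e1 e2)

end posCat

end Vale.Agent.P213
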