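import Vale.Agent.P213.Nerve.Clamp
import Vale.Agent.P213.Nerve.PosCat
import Vale.Agent.P213.Glue.PosetNerve

/-!
# End vertices of cells of `ν` of chains; simplices of nerves of posets
-/

open CategoryTheory Opposite

namespace Vale.Agent.P213

noncomputable section

namespace ADC

variable {P Q R : Type} [PartialOrder P] [PartialOrder Q] [PartialOrder R]

lemma vert_injective : Function.Injective (vert (P := P)) := fun u v h => by
  have h' : el (fun _ : Fin 1 => u) = el fun _ => v :=
    congrArg (fun t : Table (chains P) => t.x 0 true) h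
  have hm : ∀ w : P, StrictMono fun _ : Fin 1 => w := fun w i j hij => by omega
  rw [el_of_strictMono (hm u), el_of_strictMono (hm v),
    Finsupp.single_left_inj one_ne_zero] at h'
  exact congrFun (congrArg Subtype.val h') 0

/-- The source vertex. -/
def vsrc (a : Table (chains P)) : P := (exists_face_zero a false).choose

/-- The target vertex. -/
def vtgt (a : Table (chains P)) : P := (exists_face_zero a true).choose

lemma face_vsrc (a : Table (chains P)) : a.face 0 false = vert (vsrc a) :=
  (exists_face_zero a false).choose_spec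

lemma face_vtgt (a : Table (chains P)) : a.face 0 true = vert (vtgt a) :=
  (exists_face_zero a true).choose_spec

lemma vsrc_eq {a : Table (chains P)} {v : P} (h : a.face 0 false = vert v) : vsrc a = v :=
  vert_injective ((face_vsrc a).symm.trans h)

lemma vtgt_eq {a : Table (chains P)} {v : P} (h : a.face 0 true = vert v) : vtgt a = v :=
  vert_injective ((face_vtgt a).symm.trans h)

@[simp] lemma vsrc_vert (v : P) : vsrc (vert v) = v := vsrc_eq (face_vert v 0 false)

@[simp] lemma vtgt_vert (v : P) : vtgt (vert v) = v := vtgt_eq (face_vert v 0 true)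

lemma vsrc_le_vtgt (a : Table (chains P)) : vsrc a ≤ vtgt a := by
  refine Table.vertex_le a (u := ⟨fun _ => vsrc a, fun i j hij => by omega⟩)
    (v := ⟨fun _ => vtgt a, fun i j hij => by omega⟩) ?_ ?_
  · exact (congrArg (fun t : Table (chains P) => t.x 0 false) (face_vsrc a)).trans
      (el_of_strictMono _)
  · exact (congrArg (fun t : Table (chains P) => t.x 0 true) (face_vtgt a)).trans
      (el_of_strictMono _)

lemma vtgt_face_zero (a : Table (chains P)) (e : Bool) :
    vtgt (a.face 0 e) = if e then vtgt a else vsrc a := by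
  cases e
  · exact vtgt_eq ((congrArg (Table.face · 0 true) (face_vsrc a)).trans (face_vert _ 0 true))
  · exact vtgt_eq ((congrArg (Table.face · 0 true) (face_vtgt a)).trans (face_vert _ 0 true))

lemma vsrc_face_zero (a : Table (chains P)) (e : Bool) :
    vsrc (a.face 0 e) = if e then vtgt a else vsrc a := by
  cases e
  · exact vsrc_eq ((congrArg (Table.face · 0 false) (face_vsrc a)).trans (face_vert _ 0 false))
  · exact vsrc_eq ((congrArg (Table.face · 0 false) (face_vtgt a)).trans (face_vert _ 0 false))

lemma vsrc_face_pos (a : Table (chains P)) {i : ℕ} (hi : i ≠ 0) (e : Bool) :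
    vsrc (a.face i e) = vsrc a := by
  refine vsrc_eq (Eq.trans ?_ (face_vsrc a))
  cases e
  · exact ((nu (chains P)).src_src 0 i a).trans (by rw [min_eq_left (Nat.zero_le i)]; rfl)
  · exact (nu (chains P)).src_tgt_lt 0 i a (Nat.pos_of_ne_zero hi)

lemma vtgt_face_pos (a : Table (chains P)) {i : ℕ} (hi : i ≠ 0) (e : Bool) :
    vtgt (a.face i e) = vtgt a := by
  refine vtgt_eq (Eq.trans ?_ (face_vtgt a))
  cases e
  · exact (nu (chains P)).tgt_src_lt 0 i a (Nat.pos_of_ne_zero hi)
  · exact ((nu (chains P)).tgt_tgt 0 i a).trans (by rw [min_eq_left (Nat.zero_le i)]; rfl)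

lemma vsrc_comp {i : ℕ} (a b : Table (chains P)) (h : a.face i false = b.face i true) :
    vsrc (Table.comp i a b h) = vsrc b :=
  vsrc_eq (((nu (chains P)).src_comp_le i 0 a b h (Nat.zero_le i)).trans (face_vsrc b))

lemma vtgt_comp {i : ℕ} (a b : Table (chains P)) (h : a.face i false = b.face i true) :
    vtgt (Table.comp i a b h) = vtgt a :=
  vtgt_eq (((nu (chains P)).tgt_comp_le i 0 a b h (Nat.zero_le i)).trans (face_vtgt a))

lemma vtgt_le_of_composable {i : ℕ} {a b : Table (chains P)}
    (h : a.face i false = b.face i true) : vtgt b ≤ vtgt a := by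
  rcases eq_or_ne i 0 with rfl | hi
  · rw [show vtgt b = vsrc a from
      vert_injective ((face_vtgt b).symm.trans (h.symm.trans (face_vsrc a)))]
    exact vsrc_le_vtgt a
  · exact ((vtgt_face_pos b hi true).symm.trans
      ((congrArg vtgt h.symm).trans (vtgt_face_pos a hi false))).le

lemma vtgt_map (f : P →o Q) (a : Table (chains P)) :
    vtgt (Table.map (chainsMap f) a) = f (vtgt a) :=
  vtgt_eq (by rw [← Table.map_face, face_vtgt, map_vert])

lemma vsrc_map (f : P →o Q) (a : Table (chains P)) :
    vsrc (Table.map (chainsMap f) a) = f (vsrc a) :=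
  vsrc_eq (by rw [← Table.map_face, face_vsrc, map_vert])

/-- The functor to a poset induced by a monotone map. -/
def toPos (q : P →o Q) : nu (chains P) ⟶ posCat Q where
  map a := ⟨(q (vsrc a), q (vtgt a)), q.monotone (vsrc_le_vtgt a)⟩
  map_src i a := by
    refine Subtype.ext ?_
    rcases eq_or_ne i 0 with rfl | hi
    · exact Prod.ext (congrArg q (vsrc_face_zero a false)) (congrArg q (vtgt_face_zero a false))
    · refine Eq.trans ?_ (congrArg Subtype.val (posCat.src_pos hi _)).symm
      exact Prod.ext (congrArg q (vsrc_face_pos a hi false)) (congrArg q (vtgt_face_pos a hi false))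
  map_tgt i a := by
    refine Subtype.ext ?_
    rcases eq_or_ne i 0 with rfl | hi
    · exact Prod.ext (congrArg q (vsrc_face_zero a true)) (congrArg q (vtgt_face_zero a true))
    · refine Eq.trans ?_ (congrArg Subtype.val (posCat.tgt_pos hi _)).symm
      exact Prod.ext (congrArg q (vsrc_face_pos a hi true)) (congrArg q (vtgt_face_pos a hi true))
  map_comp i a b h h' := by
    refine Subtype.ext ((Prod.ext (congrArg q (vsrc_comp a b h))
      (congrArg q (vtgt_comp a b h)) : (_, _) = (q (vsrc b), q (vtgt a))).trans ?_)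
    rcases eq_or_ne i 0 with rfl | hi
    · simp [posCat]
    · have e : vsrc b = vsrc a := (vsrc_face_pos b hi true).symm.trans
        ((congrArg vsrc h.symm).trans (vsrc_face_pos a hi false))
      simp [posCat, hi, e]

lemma toPos_vert (q : P →o Q) (v : P) : (toPos q).map (vert v) = posObj (q v) :=
  Subtype.ext (by show (q _, q _) = (q v, q v); rw [vsrc_vert, vtgt_vert])

lemma toPos_comp (f : P →o Q) (q : Q →o R) :
    nuFunctor.map (chainsMap f) ≫ toPos q = toPos (q.comp f) := by
  refine OCat.hom_ext fun a => Subtype.ext ?_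
  exact Prod.ext (congrArg q (vsrc_map f a)) (congrArg q (vtgt_map f a))

end ADC

/-! ### Vertices of simplices -/

variable {X : OCat} {n : SimplexCategoryᵒᵖ}

lemma tgt_simplexHom (x : (streetNerve.obj X).obj n) (a : (orientals.obj n.unop).Cell) :
    X.tgt 0 ((simplexHom x).map a) = vtx x (ADC.vtgt a) :=
  ((simplexHom x).map_tgt 0 a).symm.trans (congrArg _ (ADC.face_vtgt a))

lemma src_simplexHom (x : (streetNerve.obj X).obj n) (a : (orientals.obj n.unop).Cell) :
    X.src 0 ((simplexHom x).map a) = vtx x (ADC.vsrc a) :=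
  ((simplexHom x).map_src 0 a).symm.trans (congrArg _ (ADC.face_vsrc a))

/-! ### Simplices of nerves of posets -/

section Nv

variable {B : Type} [PartialOrder B] {V : Set B} {m : SimplexCategoryᵒᵖ}

/-- The vertices of a simplex of the nerve of a subset. -/
def nchain (x : (Glue.nv V).obj n) : Fin (n.unop.len + 1) →o V where
  toFun i := (x : ComposableArrows V _).obj i
  monotone' _ _ h := leOfHom ((x : ComposableArrows V _).map (homOfLE h))

lemma nchain_map (θ : n ⟶ m) (x : (Glue.nv V).obj n) (i : Fin (m.unop.len + 1)) :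
    nchain ((Glue.nv V).map θ x) i = nchain x (θ.unop.toOrderHom i) := rfl

lemma nchain_ext {x y : (Glue.nv V).obj n} (h : ∀ i, (nchain x i).1 = (nchain y i).1) : x = y :=
  nerve.ext_of_isThin (funext fun i => Subtype.ext (h i))

lemma nchain_nincl {S : Set B} (hSV : S ⊆ V) (y : (Glue.nv S).obj n)
    (i : Fin (n.unop.len + 1)) : (nchain ((Glue.nincl hSV).app n y) i).1 = (nchain y i).1 := rfl

lemma nchain_restr (S : Set B) (x : (Glue.nv V).obj n) (h) (i : Fin (n.unop.len + 1)) :
    (nchain (Glue.restr S x h) i).1 = (nchain x i).1 := rfl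

end Nv

/-- The clamping endomorphism of a simplex. -/
def clampHom (k : Fin (n.unop.len + 1)) : n ⟶ n :=
  Quiver.Hom.op (show n.unop ⟶ n.unop from SimplexCategory.Hom.mk (ADC.clamp k))

@[simp] lemma clampHom_apply (k i : Fin (n.unop.len + 1)) :
    (clampHom k).unop.toOrderHom i = min i k := rfl

lemma orientals_clamp (k : Fin (n.unop.len + 1)) (a : (orientals.obj n.unop).Cell)
    (h : ADC.vtgt a ≤ k) : (orientals.map (clampHom k).unop).map a = a :=
  ADC.map_clamp_eq a k (ADC.vtgt a) (ADC.face_vtgt a) h

end

end Vale.Agent.P213
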