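import Vale.Agent.P213.Nerve.Fibre

/-!
# Full sub-ω-categories on a sieve of objects and maps to `plus`

The predicate `p` is evaluated on objects; it is a sieve if `p (tgt 0 a)` implies `p (src 0 a)`.
-/

noncomputable section

open CategoryTheory

namespace Vale.Agent.P213

namespace OCat

/-- The full sub-ω-category on the objects satisfying `p`. -/
def fullSub (X : OCat) (p : X.Cell → Prop) : OCat :=
  X.subCat (fun a => p (X.src 0 a) ∧ p (X.tgt 0 a))
    (fun i a h => by
      rcases eq_or_ne i 0 with rfl | hi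
      · rw [X.src_src, min_self, X.tgt_src_ge 0 0 a le_rfl]
        exact ⟨h.1, h.1⟩
      · rw [X.src_src, min_eq_left (Nat.zero_le i), X.tgt_src_lt 0 i a (Nat.pos_of_ne_zero hi)]
        exact h)
    (fun i a h => by
      rcases eq_or_ne i 0 with rfl | hi
      · rw [X.src_tgt_ge 0 0 a le_rfl, X.tgt_tgt, min_self]
        exact ⟨h.2, h.2⟩
      · rw [X.src_tgt_lt 0 i a (Nat.pos_of_ne_zero hi), X.tgt_tgt, min_eq_left (Nat.zero_le i)]
        exact h)
    (fun i a b h ha hb => by
      rw [X.src_comp_le i 0 a b h (Nat.zero_le i), X.tgt_comp_le i 0 a b h (Nat.zero_le i)]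
      exact ⟨hb.1, ha.2⟩)

/-- The inclusion of a full sub-ω-category. -/
def fullSubIncl (X : OCat) (p : X.Cell → Prop) : fullSub X p ⟶ X where
  map a := a.1
  map_src _ _ := rfl
  map_tgt _ _ := rfl
  map_comp _ _ _ _ _ := rfl

lemma fullSub_dimLE {n : ℕ∞} {X : OCat} (p : X.Cell → Prop) (h : DimLE n X) :
    DimLE n (fullSub X p) :=
  fun k a hk => Subtype.ext (h k a.1 hk)

end OCat

namespace Plus

variable {X Y : OCat}

/-- The inclusion of the base. -/
def plusIncl (Y : OCat) : Y ⟶ plus Y where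
  map := PCell.base
  map_src _ _ := rfl
  map_tgt _ _ := rfl
  map_comp _ _ _ h _ := (pcomp_base h).symm

lemma plusIncl_injective (Y : OCat) : Function.Injective (plusIncl Y).map :=
  fun _ _ h => PCell.base.inj h

/-- Cells of the base. -/
def IsBase (x : (plus Y).Cell) : Prop := x ∈ Set.range (plusIncl Y).map

lemma isBase_iff_side (x : (plus Y).Cell) : IsBase x ↔ side x = TwoCell.zero := by
  constructor
  · rintro ⟨a, rfl⟩
    rfl
  · intro h
    exact ⟨unbase x h, base_unbase x h⟩

open Classical in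
/-- The side of a cell for a sieve of objects. -/
def chiMap (p : X.Cell → Prop) (a : X.Cell) : TwoCell :=
  if p (X.tgt 0 a) then .zero else if p (X.src 0 a) then .arrow else .one

open Classical in
lemma chiMap_of (p : X.Cell → Prop) {x t s : X.Cell} (ht : X.tgt 0 x = t) (hs : X.src 0 x = s) :
    chiMap p x = if p t then TwoCell.zero else if p s then .arrow else .one := by
  subst ht hs
  rfl

/-- The map to `0 < 1` of a sieve of objects. -/
def chiOf (p : X.Cell → Prop) (hp : ∀ a, p (X.tgt 0 a) → p (X.src 0 a)) : X ⟶ Two where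
  map := chiMap p
  map_src i a := by
    show _ = twoSrc i (chiMap p a)
    have := hp a
    rcases eq_or_ne i 0 with rfl | hi
    · rw [chiMap_of p (X.tgt_src_ge 0 0 a le_rfl) ((X.src_src 0 0 a).trans (by rw [min_self])),
        chiMap]
      split_ifs <;> simp_all [twoSrc]
    · rw [chiMap_of p (X.tgt_src_lt 0 i a (Nat.pos_of_ne_zero hi))
        ((X.src_src 0 i a).trans (by rw [min_eq_left (Nat.zero_le i)])), chiMap]
      split_ifs <;> simp_all [twoSrc]
  map_tgt i a := by
    show _ = twoTgt i (chiMap p a)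
    have := hp a
    rcases eq_or_ne i 0 with rfl | hi
    · rw [chiMap_of p ((X.tgt_tgt 0 0 a).trans (by rw [min_self])) (X.src_tgt_ge 0 0 a le_rfl),
        chiMap]
      split_ifs <;> simp_all [twoTgt]
    · rw [chiMap_of p ((X.tgt_tgt 0 i a).trans (by rw [min_eq_left (Nat.zero_le i)]))
        (X.src_tgt_lt 0 i a (Nat.pos_of_ne_zero hi)), chiMap]
      split_ifs <;> simp_all [twoTgt]
  map_comp i a b h h' := by
    show _ = twoComp (chiMap p a) (chiMap p b)
    have h1 := hp a
    have h2 := hp b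
    rw [chiMap_of p (X.tgt_comp_le i 0 a b h (Nat.zero_le i))
      (X.src_comp_le i 0 a b h (Nat.zero_le i)), chiMap, chiMap]
    rcases eq_or_ne i 0 with rfl | hi
    · have e : X.src 0 a = X.tgt 0 b := h
      split_ifs <;> simp_all [twoComp]
    · have e1 : X.src 0 a = X.src 0 b := by
        rw [← X.src_tgt_lt 0 i b (Nat.pos_of_ne_zero hi), ← h, X.src_src,
          min_eq_left (Nat.zero_le i)]
      have e2 : X.tgt 0 a = X.tgt 0 b := by
        rw [← X.tgt_src_lt 0 i a (Nat.pos_of_ne_zero hi), h, X.tgt_tgt,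
          min_eq_left (Nat.zero_le i)]
      split_ifs <;> simp_all [twoComp]

lemma chiMap_zero_iff (p : X.Cell → Prop) (a : X.Cell) :
    chiMap p a = TwoCell.zero ↔ p (X.tgt 0 a) := by
  unfold chiMap
  split_ifs <;> simp_all

/-- The fibre of a sieve of objects is the full sub-ω-category on it. -/
def fibreToFullSub (p : X.Cell → Prop) (hp : ∀ a, p (X.tgt 0 a) → p (X.src 0 a)) :
    fibre (chiOf p hp) ⟶ OCat.fullSub X p where
  map a := ⟨a.1, hp _ ((chiMap_zero_iff p a.1).1 a.2), (chiMap_zero_iff p a.1).1 a.2⟩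
  map_src _ _ := rfl
  map_tgt _ _ := rfl
  map_comp _ _ _ _ _ := rfl

/-- Extend a map out of a full sub-ω-category on a sieve to `plus`. -/
def plusLift {p : X.Cell → Prop} (hp : ∀ a, p (X.tgt 0 a) → p (X.src 0 a))
    (φ : OCat.fullSub X p ⟶ Y) : X ⟶ plus Y :=
  extend (fibreToFullSub p hp ≫ φ)

lemma fullSubIncl_plusLift {p : X.Cell → Prop} (hp : ∀ a, p (X.tgt 0 a) → p (X.src 0 a))
    (φ : OCat.fullSub X p ⟶ Y) :
    OCat.fullSubIncl X p ≫ plusLift hp φ = φ ≫ plusIncl Y :=
  OCat.hom_ext fun a =>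
    extendMap_zero (fibreToFullSub p hp ≫ φ) ((chiMap_zero_iff p a.1).2 a.2.2)

lemma isBase_plusLift {p : X.Cell → Prop} (hp : ∀ a, p (X.tgt 0 a) → p (X.src 0 a))
    (φ : OCat.fullSub X p ⟶ Y) (a : X.Cell) :
    IsBase ((plusLift hp φ).map a) ↔ p (X.tgt 0 a) := by
  refine (isBase_iff_side _).trans (Iff.trans ?_ (chiMap_zero_iff p a))
  exact Iff.of_eq (congrArg (· = TwoCell.zero)
    (congrArg (fun k : X ⟶ Two => k.map a) (extend_proj (fibreToFullSub p hp ≫ φ))))

lemma side_obj {x : (plus Y).Cell} (h : psrc 0 x = x) : side x ≠ TwoCell.arrow := by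
  cases x <;> simp_all [psrc, side]

theorem plus_hom_ext {F G : X ⟶ plus Y}
    (h0 : ∀ v, X.src 0 v = v → (IsBase (F.map v) ↔ IsBase (G.map v)))
    (h : ∀ a, IsBase (F.map a) → F.map a = G.map a) : F = G := by
  have key : ∀ v, X.src 0 v = v → side (F.map v) = side (G.map v) := by
    intro v hv
    have e1 : psrc 0 (F.map v) = F.map v := (F.map_src 0 v).symm.trans (congrArg F.map hv)
    have e2 : psrc 0 (G.map v) = G.map v := (G.map_src 0 v).symm.trans (congrArg G.map hv)
    have n1 := side_obj e1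
    have n2 := side_obj e2
    have hiff := h0 v hv
    rw [isBase_iff_side, isBase_iff_side] at hiff
    revert n1 n2 hiff
    generalize side (F.map v) = s
    generalize side (G.map v) = t
    cases s <;> cases t <;> simp
  refine hom_ext_over (χ := F ≫ proj Y) rfl (OCat.hom_ext fun a => ?_) (OCat.hom_ext fun a => ?_)
  · show side (G.map a) = side (F.map a)
    have k1 : side (psrc 0 (F.map a)) = side (psrc 0 (G.map a)) :=
      (congrArg side (F.map_src 0 a)).symm.trans
        ((key _ (by rw [X.src_src, min_self])).trans (congrArg side (G.map_src 0 a)))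
    have k2 : side (ptgt 0 (F.map a)) = side (ptgt 0 (G.map a)) :=
      (congrArg side (F.map_tgt 0 a)).symm.trans
        ((key _ (X.src_tgt_ge 0 0 a le_rfl)).trans (congrArg side (G.map_tgt 0 a)))
    revert k1 k2
    generalize F.map a = x
    generalize G.map a = y
    cases x <;> cases y <;> simp [side, psrc, ptgt]
  · exact h a.1 ((isBase_iff_side _).2 a.2)

theorem exists_restrict {p : X.Cell → Prop} (F : X ⟶ plus Y)
    (hF : ∀ v, X.src 0 v = v → p v → IsBase (F.map v)) :
    ∃ φ : OCat.fullSub X p ⟶ Y, φ ≫ plusIncl Y = OCat.fullSubIncl X p ≫ F := by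
  have hside : ∀ a : (OCat.fullSub X p).Cell,
      (OCat.fullSubIncl X p ≫ F ≫ proj Y).map a = TwoCell.zero := by
    intro a
    have h1 := (isBase_iff_side _).1 (hF _ (X.src_tgt_ge 0 0 a.1 le_rfl) a.2.2)
    rw [F.map_tgt] at h1
    show side (F.map a.1) = _
    revert h1
    show side (ptgt 0 (F.map a.1)) = _ → _
    generalize F.map a.1 = x
    cases x <;> simp [side, ptgt]
  refine ⟨
    ({ map := fun a => ⟨a, hside a⟩
       map_src := fun _ _ => rfl
       map_tgt := fun _ _ => rfl
       map_comp := fun _ _ _ _ _ => rfl } :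
      OCat.fullSub X p ⟶ fibre (OCat.fullSubIncl X p ≫ F ≫ proj Y)) ≫
        restrict (OCat.fullSubIncl X p ≫ F) (Category.assoc _ _ _), OCat.hom_ext fun a => ?_⟩
  exact base_unbase _ _

end Plus

end Vale.Agent.P213
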