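import Vale.Agent.P213.Nerve.Ends
import Vale.Agent.P213.Nerve.FullSub

/-!
# Extending a map from the nerve of a sieve to the whole poset, with values in `plus`

Given `ψ : nv S ⟶ N Y` for a sieve `S` of `V`, each simplex `x` of `nv V` gives a functor to
`plus Y`: on the cells whose target vertex lies in `S` it is `ψ` of the clamped simplex, all other
cells leave `Y`.
-/

open CategoryTheory Opposite

namespace Vale.Agent.P213

noncomputable section

/-- A functor landing in a full sub-ω-category. -/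
def OCat.fullSubLift {W X : OCat} {p : X.Cell → Prop} (F : W ⟶ X)
    (h : ∀ a, p (X.src 0 (F.map a)) ∧ p (X.tgt 0 (F.map a))) : W ⟶ OCat.fullSub X p where
  map a := ⟨F.map a, h a⟩
  map_src i a := Subtype.ext (F.map_src i a)
  map_tgt i a := Subtype.ext (F.map_tgt i a)
  map_comp i a b h' h'' := Subtype.ext (F.map_comp i a b h' (congrArg Subtype.val h''))

namespace Plus

lemma plusLift_apply {X Y : OCat} {p : X.Cell → Prop} (hp : ∀ a, p (X.tgt 0 a) → p (X.src 0 a))
    (φ : OCat.fullSub X p ⟶ Y) (a : X.Cell) (ha : p (X.tgt 0 a)) :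
    (plusLift hp φ).map a = (plusIncl Y).map (φ.map ⟨a, hp a ha, ha⟩) :=
  congrArg (fun F : OCat.fullSub X p ⟶ plus Y => F.map ⟨a, hp a ha, ha⟩)
    (fullSubIncl_plusLift hp φ)

end Plus

namespace Extend

open Glue Plus

variable {B : Type} [PartialOrder B] {S V : Set B}
  (hS : ∀ a ∈ V, ∀ b ∈ S, a ≤ b → a ∈ S)
variable {Y : OCat} (ψ : nv S ⟶ streetNerve.obj Y) {m l : SimplexCategoryᵒᵖ}

include hS

lemma clamp_mem (x : (nv V).obj m) (k : Fin (m.unop.len + 1)) (hk : (nchain x k).1 ∈ S)
    (i : Fin (m.unop.len + 1)) : (nchain ((nv V).map (clampHom k) x) i).1 ∈ S :=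
  hS _ (nchain _ i).2 _ hk ((nchain x).monotone (min_le_right i k))

/-- The clamped simplex. -/
def cl (x : (nv V).obj m) (k : Fin (m.unop.len + 1)) (hk : (nchain x k).1 ∈ S) : (nv S).obj m :=
  restr S ((nv V).map (clampHom k) x) (clamp_mem hS x k hk)

lemma nchain_cl (x : (nv V).obj m) (k : Fin (m.unop.len + 1)) (hk : (nchain x k).1 ∈ S)
    (i : Fin (m.unop.len + 1)) : (nchain (cl hS x k hk) i).1 = (nchain x (min i k)).1 := rfl

/-- The value at a cell with target vertex in `S`. -/
def val (x : (nv V).obj m) (a : (orientals.obj m.unop).Cell)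
    (ha : (nchain x (ADC.vtgt a)).1 ∈ S) : Y.Cell :=
  (simplexHom (ψ.app m (cl hS x _ ha))).map a

omit hS in
lemma app_map_apply (θ : m ⟶ l) (y : (nv S).obj m) (a : (orientals.obj l.unop).Cell) :
    (simplexHom (ψ.app l ((nv S).map θ y))).map a =
      (simplexHom (ψ.app m y)).map ((orientals.map θ.unop).map a) := by
  rw [NatTrans.naturality_apply]
  rfl

lemma val_eq (x : (nv V).obj m) (k : Fin (m.unop.len + 1)) (hk : (nchain x k).1 ∈ S)
    (a : (orientals.obj m.unop).Cell) (hak : ADC.vtgt a ≤ k) (ha) :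
    (simplexHom (ψ.app m (cl hS x k hk))).map a = val hS ψ x a ha := by
  conv_lhs => rw [← orientals_clamp (ADC.vtgt a) a le_rfl, ← app_map_apply ψ]
  unfold val
  congr 3
  refine nchain_ext fun i => ?_
  show (nchain x (min (min i (ADC.vtgt a)) k)).1 = (nchain x (min i (ADC.vtgt a))).1
  rw [min_eq_left ((min_le_right i _).trans hak)]

/-- The predicate that the target vertex lies in `S`. -/
def InS (S : Set B) (x : (nv V).obj m) (a : (orientals.obj m.unop).Cell) : Prop :=
  (nchain x (ADC.vtgt a)).1 ∈ S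

omit hS in
lemma inS_tgt (x : (nv V).obj m) (a : (orientals.obj m.unop).Cell) :
    InS S x ((orientals.obj m.unop).tgt 0 a) ↔ InS S x a :=
  Iff.of_eq (congrArg (fun j => (nchain x j).1 ∈ S) (ADC.vtgt_face_zero a true))

lemma inS_mono (x : (nv V).obj m) (a : (orientals.obj m.unop).Cell)
    (h : InS S x ((orientals.obj m.unop).tgt 0 a)) :
    InS S x ((orientals.obj m.unop).src 0 a) := by
  show (nchain x (ADC.vtgt (ADC.Table.face a 0 false))).1 ∈ S
  rw [show ADC.vtgt (ADC.Table.face a 0 false) = ADC.vsrc a from ADC.vtgt_face_zero a false]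
  exact hS _ (nchain x _).2 _ ((inS_tgt x a).1 h) ((nchain x).monotone (ADC.vsrc_le_vtgt a))

/-- The functor on the part over `S`. -/
def part (x : (nv V).obj m) : OCat.fullSub (orientals.obj m.unop) (InS S x) ⟶ Y where
  map a := val hS ψ x a.1 ((inS_tgt x a.1).1 a.2.2)
  map_src i a := by
    refine (val_eq hS ψ x _ ((inS_tgt x a.1).1 a.2.2) ((orientals.obj m.unop).src i a.1)
      ?_ _).symm.trans ?_
    · rcases eq_or_ne i 0 with rfl | hi
      · exact (ADC.vtgt_face_zero a.1 false).le.trans (ADC.vsrc_le_vtgt a.1)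
      · exact (ADC.vtgt_face_pos a.1 hi false).le
    · exact (simplexHom _).map_src i a.1
  map_tgt i a := by
    refine (val_eq hS ψ x _ ((inS_tgt x a.1).1 a.2.2) ((orientals.obj m.unop).tgt i a.1)
      ?_ _).symm.trans ?_
    · rcases eq_or_ne i 0 with rfl | hi
      · exact (ADC.vtgt_face_zero a.1 true).le
      · exact (ADC.vtgt_face_pos a.1 hi true).le
    · exact (simplexHom _).map_tgt i a.1
  map_comp i a b h h' := by
    have hab : (orientals.obj m.unop).src i a.1 = (orientals.obj m.unop).tgt i b.1 :=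
      congrArg Subtype.val h
    have hle : ADC.vtgt b.1 ≤ ADC.vtgt a.1 := ADC.vtgt_le_of_composable hab
    have e := val_eq hS ψ x _ ((inS_tgt x a.1).1 a.2.2) b.1 hle ((inS_tgt x b.1).1 b.2.2)
    refine (val_eq hS ψ x _ ((inS_tgt x a.1).1 a.2.2) ((orientals.obj m.unop).comp i a.1 b.1 hab)
      (ADC.vtgt_comp a.1 b.1 hab).le _).symm.trans ?_
    exact ((simplexHom _).map_comp i a.1 b.1 hab ((simplexHom _).composable hab)).trans
      (OCat.comp_congr rfl e _)

/-- The functor to `plus Y` of a simplex. -/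
def toPlus (x : (nv V).obj m) : orientals.obj m.unop ⟶ plus Y :=
  plusLift (inS_mono hS x) (part hS ψ x)

lemma toPlus_of (x : (nv V).obj m) (a : (orientals.obj m.unop).Cell) (ha : InS S x a) :
    (toPlus hS ψ x).map a = (plusIncl Y).map (val hS ψ x a ha) :=
  plusLift_apply (inS_mono hS x) (part hS ψ x) a ((inS_tgt x a).2 ha)

lemma isBase_toPlus (x : (nv V).obj m) (a : (orientals.obj m.unop).Cell) :
    IsBase ((toPlus hS ψ x).map a) ↔ InS S x a :=
  (isBase_plusLift _ _ a).trans (inS_tgt x a)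

lemma toPlus_natural (θ : m ⟶ l) (x : (nv V).obj m) :
    toPlus hS ψ ((nv V).map θ x) = orientals.map θ.unop ≫ toPlus hS ψ x := by
  have hv : ∀ a, InS S x ((orientals.map θ.unop).map a) ↔ InS S ((nv V).map θ x) a := fun a =>
    Iff.of_eq (congrArg (fun j => (nchain x j).1 ∈ S) (ADC.vtgt_map θ.unop.toOrderHom a))
  refine plus_hom_ext (fun a _ => ?_) fun a ha => ?_
  · rw [isBase_toPlus, OCat.comp_map, isBase_toPlus, hv]
  · rw [isBase_toPlus] at ha
    rw [toPlus_of hS ψ _ a ha, OCat.comp_map, toPlus_of hS ψ x _ ((hv a).2 ha)]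
    refine congrArg _ ?_
    have hk := (hv a).2 ha
    refine Eq.trans ?_ ((app_map_apply ψ (clampHom (ADC.vtgt a))
      ((nv S).map θ (cl hS x _ hk)) a).trans ((app_map_apply ψ θ (cl hS x _ hk) _).trans
        (congrArg (fun t => (simplexHom (ψ.app m (cl hS x _ hk))).map
          ((orientals.map θ.unop).map t)) (orientals_clamp (ADC.vtgt a) a le_rfl))))
    refine congrArg (fun z => (simplexHom (ψ.app l z)).map a) (nchain_ext fun i => ?_)
    show (nchain x (θ.unop.toOrderHom (min i (ADC.vtgt a)))).1 =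
      (nchain x (min (θ.unop.toOrderHom (min i (ADC.vtgt a)))
        (ADC.vtgt ((orientals.map θ.unop).map a)))).1
    exact congrArg (fun j => (nchain x j).1)
      (min_eq_left ((θ.unop.toOrderHom.monotone (min_le_right i _)).trans
        (ADC.vtgt_map θ.unop.toOrderHom a).ge)).symm

/-- The extension of `ψ` with values in `plus Y`. -/
def ext : nv V ⟶ streetNerve.obj (plus Y) where
  app _ := ↾fun x => simplexMk (toPlus hS ψ x)
  naturality m l θ := by
    refine ConcreteCategory.hom_ext _ _ fun x => simplex_ext ?_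
    exact toPlus_natural hS ψ θ x

lemma simplexHom_ext (x : (nv V).obj m) :
    simplexHom ((ext hS ψ).app m x) = toPlus hS ψ x := rfl

/-- The extension restricts to `ψ`. -/
theorem nincl_ext (hSV : S ⊆ V) :
    nincl hSV ≫ ext hS ψ = ψ ≫ streetNerve.map (plusIncl Y) := by
  refine sset_hom_ext fun m y => simplex_ext (OCat.hom_ext fun a => ?_)
  have ha : InS S ((nincl hSV).app m y) a := (nchain y _).2
  refine (toPlus_of hS ψ _ a ha).trans (congrArg (plusIncl Y).map ?_)
  unfold val
  have e : cl hS ((nincl hSV).app m y) _ ha = (nv S).map (clampHom (ADC.vtgt a)) y :=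
    nchain_ext fun i => rfl
  rw [e, app_map_apply, orientals_clamp _ a le_rfl]
  rfl

end Extend

end

end Vale.Agent.P213
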