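import Vale.Agent.P213.Nerve.Plus
import Mathlib.CategoryTheory.Limits.Shapes.Pullback.IsPullback.Basic

/-!
# The fibre over `0` of a functor to `0 < 1`

Maps out of the fibre are maps to `Plus` over `0 < 1`; hence fibres preserve colimits and
reflections into `n`-categories.
-/

noncomputable section

open CategoryTheory CategoryTheory.Limits

namespace Vale.Agent.P213

variable {X Y Z : OCat}

/-- The fibre over `0`. -/
def fibre (χ : X ⟶ Two) : OCat :=
  X.subCat (fun a => χ.map a = TwoCell.zero)
    (fun i a h => by rw [χ.map_src, h]; rfl) (fun i a h => by rw [χ.map_tgt, h]; rfl)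
    (fun i a b h ha hb => by
      rw [χ.map_comp i a b h (χ.composable h)]
      exact (OCat.comp_congr' ha hb _ rfl).trans rfl)

/-- The inclusion of the fibre. -/
def fibreIncl (χ : X ⟶ Two) : fibre χ ⟶ X where
  map a := a.1
  map_src _ _ := rfl
  map_tgt _ _ := rfl
  map_comp _ _ _ _ _ := rfl

lemma fibreIncl_injective (χ : X ⟶ Two) : Function.Injective (fibreIncl χ).map :=
  Subtype.val_injective

/-- Cells of the fibre. -/
lemma range_fibreIncl (χ : X ⟶ Two) :
    Set.range (fibreIncl χ).map = {a | χ.map a = TwoCell.zero} :=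
  Subtype.range_coe

/-- A map over `0 < 1` restricts to fibres. -/
def fibreMap (f : X ⟶ Y) {χ' : X ⟶ Two} {χ : Y ⟶ Two} (h : f ≫ χ = χ') :
    fibre χ' ⟶ fibre χ where
  map a := ⟨f.map a.1, by
    have := congrArg (fun g : X ⟶ Two => g.map a.1) h
    exact this.trans a.2⟩
  map_src i a := Subtype.ext (f.map_src i a.1)
  map_tgt i a := Subtype.ext (f.map_tgt i a.1)
  map_comp i a b _ h' := Subtype.ext (f.map_comp i a.1 b.1 _ (congrArg Subtype.val h'))

@[simp] lemma fibreMap_incl (f : X ⟶ Y) {χ' : X ⟶ Two} {χ : Y ⟶ Two} (h : f ≫ χ = χ') :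
    fibreMap f h ≫ fibreIncl χ = fibreIncl χ' ≫ f := rfl

lemma fibre_dimLE {n : ℕ∞} (χ : X ⟶ Two) (h : OCat.DimLE n X) : OCat.DimLE n (fibre χ) :=
  fun k a hk => Subtype.ext (h k a.1 hk)

namespace Plus

variable {χ : X ⟶ Two}

lemma zero_or_arrow_src {a : X.Cell} (h : χ.map a ≠ TwoCell.one) :
    χ.map (X.src 0 a) = TwoCell.zero := by
  rw [χ.map_src]
  revert h
  generalize χ.map a = t
  cases t <;> simp [Two, twoSrc]

open Classical in
/-- The value of the extension of a map out of the fibre at a cell. -/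
def extendMap (g : fibre χ ⟶ Z) (a : X.Cell) : PCell Z :=
  if h : χ.map a = TwoCell.zero then .base (g.map ⟨a, h⟩)
  else if h' : χ.map a = TwoCell.one then .top
  else .arr ⟨g.map ⟨X.src 0 a, zero_or_arrow_src h'⟩,
    (g.map_src 0 _).symm.trans (congrArg g.map (Subtype.ext (by
      show X.src 0 (X.src 0 a) = X.src 0 a
      rw [X.src_src, min_self])))⟩

lemma extendMap_zero (g : fibre χ ⟶ Z) {a : X.Cell} (h : χ.map a = TwoCell.zero) :
    extendMap g a = .base (g.map ⟨a, h⟩) :=
  dif_pos h

lemma extendMap_one (g : fibre χ ⟶ Z) {a : X.Cell} (h : χ.map a = TwoCell.one) :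
    extendMap g a = .top := by
  rw [extendMap, dif_neg (by rw [h]; exact fun e => nomatch e), dif_pos h]

lemma extendMap_arrow (g : fibre χ ⟶ Z) {a : X.Cell} (h : χ.map a = TwoCell.arrow) :
    ∃ hs hz, extendMap g a = .arr ⟨g.map ⟨X.src 0 a, hs⟩, hz⟩ := by
  rw [extendMap, dif_neg (by rw [h]; exact fun e => nomatch e), dif_neg (by rw [h]; exact fun e => nomatch e)]
  exact ⟨_, _, rfl⟩

/-- Extend a map out of the fibre to a map over `0 < 1`. -/
def extend (g : fibre χ ⟶ Z) : X ⟶ plus Z where
  map := extendMap g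
  map_src i a := by
    show _ = psrc i _
    have e : χ.map (X.src i a) = twoSrc i (χ.map a) := χ.map_src i a
    cases ht : χ.map a with
    | zero =>
      rw [ht] at e
      rw [extendMap_zero g e, extendMap_zero g ht]
      exact congrArg PCell.base (g.map_src i ⟨a, ht⟩)
    | one =>
      rw [ht] at e
      rw [extendMap_one g e, extendMap_one g ht]
      rfl
    | arrow =>
      rw [ht] at e
      obtain ⟨hs, hz, he⟩ := extendMap_arrow g ht
      rcases eq_or_ne i 0 with rfl | hi
      · rw [extendMap_zero g e, he, psrc_arr_zero]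
      · simp [twoSrc, hi] at e
        obtain ⟨hs', hz', he'⟩ := extendMap_arrow g e
        rw [he, he', psrc_arr_pos hi]
        congr 2
        exact congrArg g.map (Subtype.ext (by
          show X.src 0 (X.src i a) = X.src 0 a
          rw [X.src_src, min_eq_left (Nat.zero_le i)]))
  map_tgt i a := by
    show _ = ptgt i _
    have e : χ.map (X.tgt i a) = twoTgt i (χ.map a) := χ.map_tgt i a
    cases ht : χ.map a with
    | zero =>
      rw [ht] at e
      rw [extendMap_zero g e, extendMap_zero g ht]
      exact congrArg PCell.base (g.map_tgt i ⟨a, ht⟩)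
    | one =>
      rw [ht] at e
      rw [extendMap_one g e, extendMap_one g ht]
      rfl
    | arrow =>
      rw [ht] at e
      obtain ⟨hs, hz, he⟩ := extendMap_arrow g ht
      rcases eq_or_ne i 0 with rfl | hi
      · rw [extendMap_one g e, he, ptgt_arr_zero]
      · simp [twoTgt, hi] at e
        obtain ⟨hs', hz', he'⟩ := extendMap_arrow g e
        rw [he, he', ptgt_arr_pos hi]
        congr 2
        exact congrArg g.map (Subtype.ext (by
          show X.src 0 (X.tgt i a) = X.src 0 a
          rw [X.src_tgt_lt 0 i a (Nat.pos_of_ne_zero hi)]))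
  map_comp i a b h h' := by
    show _ = pcomp i _ _
    have hT : twoSrc i (χ.map a) = twoTgt i (χ.map b) := χ.composable h
    have e : χ.map (X.comp i a b h) = twoComp (χ.map a) (χ.map b) :=
      χ.map_comp i a b h (χ.composable h)
    have hsrc : X.src 0 (X.comp i a b h) = X.src 0 b := X.src_comp_le i 0 a b h (Nat.zero_le i)
    cases ha : χ.map a <;> cases hb : χ.map b <;> rw [ha, hb] at hT e <;>
      rcases eq_or_ne i 0 with rfl | hi <;>
      first
      | (simp [twoSrc, twoTgt, *] at hT; done)
      | (rw [extendMap_one g ha, extendMap_one g hb, extendMap_one g e]; rfl)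
      | (rw [extendMap_zero g ha, extendMap_zero g hb, extendMap_zero g e]
         have hh : (fibre χ).src _ ⟨a, ha⟩ = (fibre χ).tgt _ ⟨b, hb⟩ := Subtype.ext h
         rw [pcomp_base (g.composable hh)]
         exact congrArg PCell.base (g.map_comp _ ⟨a, ha⟩ ⟨b, hb⟩ hh _))
      | (obtain ⟨hs, hz, he⟩ := extendMap_arrow g ha
         obtain ⟨hs', hz', he'⟩ := extendMap_arrow g e
         rw [he, extendMap_zero g hb, he']
         show PCell.arr _ = PCell.arr _
         congr 2
         exact (congrArg g.map (Subtype.ext hsrc)).trans (g.map_src 0 ⟨b, hb⟩))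
      | (obtain ⟨hs, hz, he⟩ := extendMap_arrow g hb
         obtain ⟨hs', hz', he'⟩ := extendMap_arrow g e
         rw [he, extendMap_one g ha, he']
         show PCell.arr _ = PCell.arr _
         congr 2
         exact congrArg g.map (Subtype.ext hsrc))
      | (obtain ⟨hs, hz, he⟩ := extendMap_arrow g ha
         obtain ⟨hs', hz', he'⟩ := extendMap_arrow g e
         obtain ⟨hs'', hz'', he''⟩ := extendMap_arrow g hb
         rw [he, he'', he']
         show PCell.arr _ = PCell.arr _
         congr 2
         refine congrArg g.map (Subtype.ext (hsrc.trans ?_))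
         rw [← X.src_tgt_lt 0 i b (Nat.pos_of_ne_zero hi), ← h, X.src_src,
           min_eq_left (Nat.zero_le i)])

lemma extend_proj (g : fibre χ ⟶ Z) : extend g ≫ proj Z = χ := by
  refine OCat.hom_ext fun a => ?_
  show side (extendMap g a) = χ.map a
  cases ht : χ.map a with
  | zero => rw [extendMap_zero g ht]; rfl
  | one => rw [extendMap_one g ht]; rfl
  | arrow =>
    obtain ⟨hs, hz, he⟩ := extendMap_arrow g ht
    rw [he]
    rfl

/-- The cell of `Z` under a base cell. -/
def unbase : (x : PCell Z) → side x = TwoCell.zero → Z.Cell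
  | .base a, _ => a
  | .arr _, h => nomatch h
  | .top, h => nomatch h

lemma base_unbase : ∀ (x : PCell Z) (h : side x = TwoCell.zero), PCell.base (unbase x h) = x
  | .base _, _ => rfl

/-- Restrict a map over `0 < 1` to the fibre. -/
def restrict (G : X ⟶ plus Z) (hG : G ≫ proj Z = χ) : fibre χ ⟶ Z where
  map a := unbase (G.map a.1) ((congrArg (fun g : X ⟶ Two => g.map a.1) hG).trans a.2)
  map_src i a := PCell.base.inj ((base_unbase _ _).trans ((G.map_src i a.1).trans
    (congrArg (psrc i) (base_unbase (G.map a.1) _).symm)))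
  map_tgt i a := PCell.base.inj ((base_unbase _ _).trans ((G.map_tgt i a.1).trans
    (congrArg (ptgt i) (base_unbase (G.map a.1) _).symm)))
  map_comp i a b h h' := PCell.base.inj ((base_unbase _ _).trans
    ((G.map_comp i a.1 b.1 _ (G.composable (congrArg Subtype.val h))).trans
      ((congrArg₂ (pcomp i) (base_unbase (G.map a.1) _).symm
        (base_unbase (G.map b.1) _).symm).trans (pcomp_base h'))))

lemma restrict_spec (G : X ⟶ plus Z) (hG : G ≫ proj Z = χ) (a : (fibre χ).Cell) :
    PCell.base ((restrict G hG).map a) = G.map a.1 :=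
  base_unbase _ _

lemma restrict_extend (g : fibre χ ⟶ Z) : restrict (extend g) (extend_proj g) = g :=
  OCat.hom_ext fun a => PCell.base.inj ((restrict_spec _ _ a).trans (extendMap_zero g a.2))

/-- Maps over `0 < 1` into `plus Z` are determined on the fibre. -/
lemma hom_ext_over {G G' : X ⟶ plus Z} (hG : G ≫ proj Z = χ) (hG' : G' ≫ proj Z = χ)
    (h : fibreIncl χ ≫ G = fibreIncl χ ≫ G') : G = G' := by
  refine OCat.hom_ext fun a => ?_
  have s1 : side (G.map a) = χ.map a := congrArg (fun g : X ⟶ Two => g.map a) hG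
  have s2 : side (G'.map a) = χ.map a := congrArg (fun g : X ⟶ Two => g.map a) hG'
  cases ht : χ.map a with
  | zero => exact congrArg (fun g : fibre χ ⟶ plus Z => g.map ⟨a, ht⟩) h
  | one =>
    rw [ht] at s1 s2
    revert s1 s2
    generalize G.map a = x
    generalize G'.map a = y
    cases x <;> cases y <;> simp [side] <;> intros <;> rfl
  | arrow =>
    have hs : χ.map (X.src 0 a) = TwoCell.zero := by rw [χ.map_src, ht]; rfl
    have h0 : psrc 0 (G.map a) = psrc 0 (G'.map a) :=
      (G.map_src 0 a).symm.trans ((congrArg (fun g : fibre χ ⟶ plus Z =>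
        g.map ⟨X.src 0 a, hs⟩) h).trans (G'.map_src 0 a))
    rw [ht] at s1 s2
    revert s1 s2 h0
    generalize G.map a = x
    generalize G'.map a = y
    cases x <;> cases y <;> simp [side, psrc] <;>
      exact fun h => congrArg PCell.arr (Subtype.ext h)

lemma extend_restrict (G : X ⟶ plus Z) (hG : G ≫ proj Z = χ) : extend (restrict G hG) = G :=
  hom_ext_over (extend_proj _) hG <| OCat.hom_ext fun a =>
    (extendMap_zero (restrict G hG) a.2).trans (restrict_spec G hG a)

lemma incl_extend_eq (g : fibre χ ⟶ Z) {g' : fibre χ ⟶ Z}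
    (h : fibreIncl χ ≫ extend g = fibreIncl χ ≫ extend g') : g = g' :=
  OCat.hom_ext fun a => PCell.base.inj ((extendMap_zero g a.2).symm.trans
    ((congrArg (fun f : fibre χ ⟶ plus Z => f.map a) h).trans (extendMap_zero g' a.2)))

lemma comp_extend {f : Y ⟶ X} {χ' : Y ⟶ Two} (hf : f ≫ χ = χ') (g : fibre χ ⟶ Z) :
    f ≫ extend g = extend (fibreMap f hf ≫ g) := by
  refine hom_ext_over (χ := χ') (by rw [Category.assoc, extend_proj, hf]) (extend_proj _) ?_
  refine OCat.hom_ext fun a => ?_
  exact (extendMap_zero g ((congrArg (fun f : Y ⟶ Two => f.map a.1) hf).trans a.2)).trans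
    (extendMap_zero (fibreMap f hf ≫ g) a.2).symm

end Plus

open Plus

section Colimit

variable {J : Type} [SmallCategory J] {F : J ⥤ OCat}

/-- The diagram of fibres. -/
def fibreDiagram (c : Cocone F) (χ : c.pt ⟶ Two) : J ⥤ OCat where
  obj j := fibre (c.ι.app j ≫ χ)
  map f := fibreMap (F.map f) (by rw [← Category.assoc, c.w f])
  map_id j := OCat.hom_ext fun a => Subtype.ext (by
    show (F.map (𝟙 j)).map a.1 = a.1
    rw [F.map_id]
    rfl)
  map_comp f g := OCat.hom_ext fun a => Subtype.ext (by
    show (F.map (f ≫ g)).map a.1 = (F.map g).map ((F.map f).map a.1)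
    rw [F.map_comp]
    rfl)

/-- The cocone of fibres. -/
def fibreCocone (c : Cocone F) (χ : c.pt ⟶ Two) : Cocone (fibreDiagram c χ) where
  pt := fibre χ
  ι :=
    { app := fun j => fibreMap (c.ι.app j) rfl
      naturality := fun _ _ f => OCat.hom_ext fun a => Subtype.ext
        (congrArg (fun g : F.obj _ ⟶ c.pt => g.map a.1) (c.w f)) }

/-- A cocone on the fibres extends to a cocone over `0 < 1`. -/
def extendCocone {c : Cocone F} {χ : c.pt ⟶ Two} (s : Cocone (fibreDiagram c χ)) : Cocone F where
  pt := plus s.pt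
  ι :=
    { app := fun j => extend (s.ι.app j)
      naturality := fun i j f => by
        refine ((comp_extend (χ := c.ι.app j ≫ χ) (χ' := c.ι.app i ≫ χ)
          ((Category.assoc _ _ _).symm.trans (congrArg (· ≫ χ) (c.w f))) (s.ι.app j)).trans
            (congrArg extend (s.w f))).trans ?_
        exact (Category.comp_id _).symm }

/-- Fibres preserve colimits. -/
def isColimitFibreCocone {c : Cocone F} (hc : IsColimit c) (χ : c.pt ⟶ Two) :
    IsColimit (fibreCocone c χ) where
  desc s := restrict (hc.desc (extendCocone s))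
    (hc.hom_ext fun j => (Category.assoc _ _ _).symm.trans
      ((congrArg (· ≫ proj s.pt) (hc.fac (extendCocone s) j)).trans (extend_proj _)))
  fac s j := by
    refine OCat.hom_ext fun a => PCell.base.inj ?_
    refine (base_unbase _ _).trans ?_
    exact (congrArg (fun g : F.obj j ⟶ plus s.pt => g.map a.1)
      (hc.fac (extendCocone s) j)).trans (extendMap_zero (s.ι.app j) a.2)
  uniq s m hm := by
    have : extend m = hc.desc (extendCocone s) := hc.hom_ext fun j => by
      refine (comp_extend (χ := χ) (χ' := c.ι.app j ≫ χ) rfl m).trans ?_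
      exact (congrArg extend (hm j)).trans (hc.fac (extendCocone s) j).symm
    refine OCat.hom_ext fun a => PCell.base.inj ?_
    refine Eq.trans ?_ (restrict_spec _ _ a).symm
    rw [← this]
    exact (extendMap_zero m a.2).symm

end Colimit

/-- Fibres preserve pushouts. -/
theorem isPushout_fibre {A B C D : OCat} {f : A ⟶ B} {g : A ⟶ C} {inl : B ⟶ D} {inr : C ⟶ D}
    (h : IsPushout f g inl inr) (χ : D ⟶ Two) :
    IsPushout (fibreMap f (χ' := f ≫ inl ≫ χ) (χ := inl ≫ χ) rfl)
      (fibreMap g (χ' := f ≫ inl ≫ χ) (χ := inr ≫ χ)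
        (by rw [← Category.assoc, ← h.w, Category.assoc]))
      (fibreMap inl (χ := χ) rfl) (fibreMap inr (χ := χ) rfl) := by
  have hg : g ≫ inr ≫ χ = f ≫ inl ≫ χ := by rw [← Category.assoc, ← h.w, Category.assoc]
  have w : ∀ {W : OCat} (p : fibre (inl ≫ χ) ⟶ W) (q : fibre (inr ≫ χ) ⟶ W),
      fibreMap f (χ' := f ≫ inl ≫ χ) (χ := inl ≫ χ) rfl ≫ p =
        fibreMap g (χ' := f ≫ inl ≫ χ) (χ := inr ≫ χ) hg ≫ q →
      f ≫ extend p = g ≫ extend q := fun p q hpq => by
    rw [comp_extend (χ := inl ≫ χ) rfl p, comp_extend (χ := inr ≫ χ) hg q, hpq]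
  refine ⟨⟨OCat.hom_ext fun a => Subtype.ext
    (congrArg (fun k : A ⟶ D => k.map a.1) h.w)⟩, ⟨PushoutCocone.IsColimit.mk _
      (fun s => restrict (h.desc (extend s.inl) (extend s.inr) (w _ _ s.condition)) ?_) ?_ ?_ ?_⟩⟩
  · exact h.hom_ext (by rw [h.inl_desc_assoc]; exact extend_proj _)
      (by rw [h.inr_desc_assoc]; exact extend_proj _)
  · intro s
    refine OCat.hom_ext fun a => PCell.base.inj ((base_unbase _ _).trans ?_)
    exact (congrArg (fun k : B ⟶ plus s.pt => k.map a.1) (h.inl_desc _ _ _)).trans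
      (extendMap_zero s.inl a.2)
  · intro s
    refine OCat.hom_ext fun a => PCell.base.inj ((base_unbase _ _).trans ?_)
    exact (congrArg (fun k : C ⟶ plus s.pt => k.map a.1) (h.inr_desc _ _ _)).trans
      (extendMap_zero s.inr a.2)
  · intro s m hl hr
    have hm : extend m = h.desc (extend s.inl) (extend s.inr) (w _ _ s.condition) :=
      h.hom_ext (by rw [h.inl_desc, comp_extend (χ := χ) (χ' := inl ≫ χ) rfl, hl])
        (by rw [h.inr_desc, comp_extend (χ := χ) (χ' := inr ≫ χ) rfl, hr])
    refine OCat.hom_ext fun a => PCell.base.inj (Eq.trans ?_ (restrict_spec _ _ a).symm)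
    rw [← hm]
    exact (extendMap_zero m a.2).symm

/-- Fibres preserve universal maps to `n`-categories. -/
theorem fibre_universal {n : ℕ∞} (hn : 1 ≤ n) {R : OCat} (η : X ⟶ R)
    (hη : ∀ W, OCat.DimLE n W → Function.Bijective (fun g : R ⟶ W => η ≫ g)) (χ : R ⟶ Two)
    (W : OCat) (hW : OCat.DimLE n W) :
    Function.Bijective
      (fun g : fibre χ ⟶ W => fibreMap η (χ' := η ≫ χ) (χ := χ) rfl ≫ g) := by
  have hP := plus_dimLE hn hW
  constructor
  · intro g g' h
    refine incl_extend_eq g (congrArg (fun G : R ⟶ plus W => fibreIncl χ ≫ G)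
      ((hη _ hP).1 ?_))
    show η ≫ extend g = η ≫ extend g'
    rw [comp_extend (χ := χ) (χ' := η ≫ χ) rfl g, comp_extend (χ := χ) (χ' := η ≫ χ) rfl g']
    exact congrArg extend h
  · intro g
    obtain ⟨G, hG⟩ := (hη _ hP).2 (extend g)
    have hGp : G ≫ proj W = χ := (hη _ (two_dimLE hn)).1 (by
      show η ≫ G ≫ proj W = η ≫ χ
      rw [← Category.assoc]
      exact (congrArg (· ≫ proj W) hG).trans (extend_proj g))
    refine ⟨restrict G hGp, OCat.hom_ext fun a => PCell.base.inj ?_⟩
    exact (base_unbase _ _).trans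
      ((congrArg (fun k : X ⟶ plus W => k.map a.1) hG).trans (extendMap_zero g a.2))

end Vale.Agent.P213
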