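import Vale.Agent.P213.Basic.OCat
import Mathlib.CategoryTheory.Limits.HasLimits

/-!
# The fibre over `0` of an ω-category over `Δ¹` is a left adjoint

`Two` is the category `0 < 1`.  For `χ : X ⟶ Two` the fibre over `0` is a sub-ω-category, and maps
from it to `Z` are maps over `Two` from `X` to `Plus Z`, which is `Z` with one extra object and
terminal homs into it.  So taking fibres preserves colimits, also among `n`-categories (`1 ≤ n`).
-/

noncomputable section

open CategoryTheory CategoryTheory.Limits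

namespace Vale.Agent.P213

namespace OCat

lemma src_zero_tgt_zero (X : OCat) (a : X.Cell) : X.src 0 (X.tgt 0 a) = X.tgt 0 a :=
  X.src_tgt_ge 0 0 a le_rfl

lemma comp_congr' {X : OCat} {i : ℕ} {a a' b b' : X.Cell} (ha : a = a') (hb : b = b')
    (h : X.src i a = X.tgt i b) (h' : X.src i a' = X.tgt i b') :
    X.comp i a b h = X.comp i a' b' h' := by
  subst ha hb
  rfl

/-- A subset closed under the operations, as an ω-category. -/
def subCat (X : OCat) (S : X.Cell → Prop) (hs : ∀ i a, S a → S (X.src i a))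
    (ht : ∀ i a, S a → S (X.tgt i a)) (hc : ∀ i a b h, S a → S b → S (X.comp i a b h)) : OCat where
  Cell := {a : X.Cell // S a}
  src i a := ⟨X.src i a.1, hs i a.1 a.2⟩
  tgt i a := ⟨X.tgt i a.1, ht i a.1 a.2⟩
  comp i a b h := ⟨X.comp i a.1 b.1 (congrArg Subtype.val h), hc i a.1 b.1 _ a.2 b.2⟩
  src_src i j a := Subtype.ext (X.src_src i j a.1)
  tgt_tgt i j a := Subtype.ext (X.tgt_tgt i j a.1)
  src_tgt_lt i j a h := Subtype.ext (X.src_tgt_lt i j a.1 h)
  src_tgt_ge i j a h := Subtype.ext (X.src_tgt_ge i j a.1 h)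
  tgt_src_lt i j a h := Subtype.ext (X.tgt_src_lt i j a.1 h)
  tgt_src_ge i j a h := Subtype.ext (X.tgt_src_ge i j a.1 h)
  exists_dim a := (X.exists_dim a.1).imp fun _ h => Subtype.ext h
  comp_unit_right i a _ := Subtype.ext (X.comp_unit_right i a.1 _)
  comp_unit_left i a _ := Subtype.ext (X.comp_unit_left i a.1 _)
  src_comp_le i j a b _ hj := Subtype.ext (X.src_comp_le i j a.1 b.1 _ hj)
  tgt_comp_le i j a b _ hj := Subtype.ext (X.tgt_comp_le i j a.1 b.1 _ hj)
  src_comp_gt i j a b _ _ hj := Subtype.ext (X.src_comp_gt i j a.1 b.1 _ _ hj)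
  tgt_comp_gt i j a b _ _ hj := Subtype.ext (X.tgt_comp_gt i j a.1 b.1 _ _ hj)
  assoc i a b c _ _ _ _ := Subtype.ext (X.assoc i a.1 b.1 c.1 _ _ _ _)
  interchange i j a b c d _ _ _ _ _ _ hij :=
    Subtype.ext (X.interchange i j a.1 b.1 c.1 d.1 _ _ _ _ _ _ hij)

end OCat

namespace Plus

/-- Cells of `Plus Z`: those of `Z`, one arrow to the new object per object of `Z`, the new
object. -/
inductive PCell (Z : OCat) : Type
  | base (a : Z.Cell)
  | arr (z : {a : Z.Cell // Z.src 0 a = a})
  | top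

variable {Z Z' : OCat}

/-- Sources. -/
def psrc (i : ℕ) : PCell Z → PCell Z
  | .base a => .base (Z.src i a)
  | .arr z => if i = 0 then .base z.1 else .arr z
  | .top => .top

/-- Targets. -/
def ptgt (i : ℕ) : PCell Z → PCell Z
  | .base a => .base (Z.tgt i a)
  | .arr z => if i = 0 then .top else .arr z
  | .top => .top

open Classical in
/-- Composition (the value on non-composable pairs is irrelevant). -/
def pcomp (i : ℕ) : PCell Z → PCell Z → PCell Z
  | .base a, .base b => if h : Z.src i a = Z.tgt i b then .base (Z.comp i a b h) else .base a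
  | .arr _, .base b => .arr ⟨Z.src 0 b, by rw [Z.src_src, min_self]⟩
  | .base a, _ => .base a
  | .arr z, _ => .arr z
  | .top, y => y

lemma pcomp_base {i : ℕ} {a b : Z.Cell} (h : Z.src i a = Z.tgt i b) :
    pcomp i (.base a) (.base b) = .base (Z.comp i a b h) := by
  simp [pcomp, h]

lemma psrc_arr_zero (z : {a : Z.Cell // Z.src 0 a = a}) :
    psrc 0 (.arr z) = .base z.1 := by simp [psrc]

lemma psrc_arr_pos {i : ℕ} (hi : i ≠ 0) (z : {a : Z.Cell // Z.src 0 a = a}) :
    psrc i (.arr z) = .arr z := by simp [psrc, hi]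

lemma ptgt_arr_zero (z : {a : Z.Cell // Z.src 0 a = a}) : ptgt 0 (.arr z) = .top := by
  simp [ptgt]

lemma ptgt_arr_pos {i : ℕ} (hi : i ≠ 0) (z : {a : Z.Cell // Z.src 0 a = a}) :
    ptgt i (.arr z) = .arr z := by simp [ptgt, hi]

/-- The composable pairs of `i`-composition. -/
lemma composable_cases {i : ℕ} {x y : PCell Z} (h : psrc i x = ptgt i y) :
    (∃ a b, x = .base a ∧ y = .base b ∧ Z.src i a = Z.tgt i b) ∨
      (i = 0 ∧ ∃ z b, x = .arr z ∧ y = .base b ∧ z.1 = Z.tgt 0 b) ∨
      (i = 0 ∧ ∃ z, x = .top ∧ y = .arr z) ∨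
      (i ≠ 0 ∧ ∃ z, x = .arr z ∧ y = .arr z) ∨ (x = .top ∧ y = .top) := by
  cases x <;> cases y <;> rcases eq_or_ne i 0 with rfl | hi <;> simp_all [psrc, ptgt]

lemma composable_pos {i : ℕ} (hi : i ≠ 0) {x y : PCell Z} (h : psrc i x = ptgt i y) :
    (∃ a b, x = .base a ∧ y = .base b ∧ Z.src i a = Z.tgt i b) ∨
      (x = y ∧ ∀ a, x ≠ .base a) := by
  cases x <;> cases y <;> simp_all [psrc, ptgt]

/-- `Z` with one extra object and terminal homs into it. -/
def plus (Z : OCat) : OCat where
  Cell := PCell Z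
  src := psrc
  tgt := ptgt
  comp i x y _ := pcomp i x y
  src_src i j a := by
    cases a with
    | base a => simp [psrc, Z.src_src]
    | arr z =>
      rcases eq_or_ne i 0 with rfl | hi <;> rcases eq_or_ne j 0 with rfl | hj <;>
        simp_all [psrc, z.2]
      · rw [← z.2, Z.src_src]
        simp
    | top => rfl
  tgt_tgt i j a := by
    cases a with
    | base a => simp [ptgt, Z.tgt_tgt]
    | arr z =>
      rcases eq_or_ne i 0 with rfl | hi <;> rcases eq_or_ne j 0 with rfl | hj <;>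
        simp_all [ptgt]
    | top => rfl
  src_tgt_lt i j a h := by
    cases a with
    | base a => simp [psrc, ptgt, Z.src_tgt_lt i j a h]
    | arr z => rw [ptgt_arr_pos (by omega)]
    | top => rfl
  src_tgt_ge i j a h := by
    cases a with
    | base a => simp [psrc, ptgt, Z.src_tgt_ge i j a h]
    | arr z =>
      rcases eq_or_ne j 0 with rfl | hj
      · rw [ptgt_arr_zero]
        rfl
      · rw [ptgt_arr_pos hj, psrc_arr_pos (by omega)]
    | top => rfl
  tgt_src_lt i j a h := by
    cases a with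
    | base a => simp [psrc, ptgt, Z.tgt_src_lt i j a h]
    | arr z => rw [psrc_arr_pos (by omega)]
    | top => rfl
  tgt_src_ge i j a h := by
    cases a with
    | base a => simp [psrc, ptgt, Z.tgt_src_ge i j a h]
    | arr z =>
      rcases eq_or_ne j 0 with rfl | hj
      · rw [psrc_arr_zero]
        show PCell.base (Z.tgt i z.1) = .base z.1
        rw [← z.2, Z.tgt_src_ge i 0 _ (Nat.zero_le i)]
      · rw [psrc_arr_pos hj, ptgt_arr_pos (by omega)]
    | top => rfl
  exists_dim a := by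
    cases a with
    | base a => exact (Z.exists_dim a).imp fun k hk => congrArg PCell.base hk
    | arr z => exact ⟨1, psrc_arr_pos one_ne_zero z⟩
    | top => exact ⟨0, rfl⟩
  comp_unit_right i a h := by
    cases a with
    | base a =>
      exact (pcomp_base (Z.tgt_src_ge i i a le_rfl).symm).trans
        (congrArg PCell.base (Z.comp_unit_right i a _))
    | arr z =>
      rcases eq_or_ne i 0 with rfl | hi
      · rw [psrc_arr_zero]
        exact congrArg PCell.arr (Subtype.ext z.2)
      · rw [psrc_arr_pos hi]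
        rfl
    | top => rfl
  comp_unit_left i a h := by
    cases a with
    | base a =>
      exact (pcomp_base (Z.src_tgt_ge i i a le_rfl)).trans
        (congrArg PCell.base (Z.comp_unit_left i a _))
    | arr z => rcases eq_or_ne i 0 with rfl | hi <;> simp_all [ptgt, pcomp]
    | top => rfl
  src_comp_le i j a b h hj := by
    rcases composable_cases h with ⟨a, b, rfl, rfl, e⟩ | ⟨rfl, z, b, rfl, rfl, e⟩ |
      ⟨rfl, z, rfl, rfl⟩ | ⟨hi, z, rfl, rfl⟩ | ⟨rfl, rfl⟩
    · simp [pcomp_base e, psrc, Z.src_comp_le i j a b e hj]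
    · obtain rfl : j = 0 := by omega
      simp [pcomp, psrc]
    all_goals simp [pcomp, psrc]
  tgt_comp_le i j a b h hj := by
    rcases composable_cases h with ⟨a, b, rfl, rfl, e⟩ | ⟨rfl, z, b, rfl, rfl, e⟩ |
      ⟨rfl, z, rfl, rfl⟩ | ⟨hi, z, rfl, rfl⟩ | ⟨rfl, rfl⟩
    · simp [pcomp_base e, ptgt, Z.tgt_comp_le i j a b e hj]
    all_goals first
      | (simp [pcomp, ptgt]; done)
      | (obtain rfl : j = 0 := by omega
         simp [pcomp, ptgt])
  src_comp_gt i j a b h h' hj := by
    have hj0 : j ≠ 0 := by omega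
    rcases composable_cases h with ⟨a, b, rfl, rfl, e⟩ | ⟨rfl, z, b, rfl, rfl, e⟩ |
      ⟨rfl, z, rfl, rfl⟩ | ⟨hi, z, rfl, rfl⟩ | ⟨rfl, rfl⟩
    · rw [pcomp_base e]
      refine (congrArg PCell.base (Z.src_comp_gt i j a b e (PCell.base.inj h') hj)).trans ?_
      exact (pcomp_base _).symm
    all_goals simp [pcomp, psrc, hj0, Z.src_src]
  tgt_comp_gt i j a b h h' hj := by
    have hj0 : j ≠ 0 := by omega
    rcases composable_cases h with ⟨a, b, rfl, rfl, e⟩ | ⟨rfl, z, b, rfl, rfl, e⟩ |
      ⟨rfl, z, rfl, rfl⟩ | ⟨hi, z, rfl, rfl⟩ | ⟨rfl, rfl⟩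
    · rw [pcomp_base e]
      refine (congrArg PCell.base (Z.tgt_comp_gt i j a b e (PCell.base.inj h') hj)).trans ?_
      exact (pcomp_base _).symm
    all_goals simp [pcomp, ptgt, hj0, Z.src_tgt_lt 0 j _ (Nat.pos_of_ne_zero hj0)]
  assoc i a b c h₁ h₂ h₃ h₄ := by
    rcases composable_cases h₁ with ⟨a, b, rfl, rfl, e⟩ | ⟨rfl, z, b, rfl, rfl, e⟩ |
      ⟨rfl, z, rfl, rfl⟩ | ⟨hi, z, rfl, rfl⟩ | ⟨rfl, rfl⟩ <;> cases c
    case inl.base c =>
      have e' : Z.src i b = Z.tgt i c := PCell.base.inj h₃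
      have e₂ : Z.src i (Z.comp i a b e) = Z.tgt i c := by
        rw [Z.src_comp_le i i a b e le_rfl]; exact e'
      have e₄ : Z.src i a = Z.tgt i (Z.comp i b c e') := by
        rw [Z.tgt_comp_le i i b c e' le_rfl]; exact e
      rw [pcomp_base e, pcomp_base e₂, pcomp_base e', pcomp_base e₄]
      exact congrArg PCell.base (Z.assoc i a b c e e₂ e' e₄)
    case inr.inl.base c =>
      have e' : Z.src 0 b = Z.tgt 0 c := PCell.base.inj h₃
      simp [pcomp, e', Z.src_comp_le]
    all_goals first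
      | (simp [pcomp]; done)
      | (rcases composable_cases h₃ with ⟨_, _, h, h', -⟩ | ⟨rfl, _, _, h, h', -⟩ |
          ⟨-, _, h, h'⟩ | ⟨h0, _, h, h'⟩ | ⟨h, h'⟩ <;> simp_all [pcomp])
  interchange i j a b c d h₁ h₂ h₃ h₄ h₅ h₆ hij := by
    have hj0 : j ≠ 0 := by omega
    rcases composable_pos hj0 h₁ with ⟨a, b, rfl, rfl, e⟩ | ⟨rfl, ha⟩ <;>
      rcases composable_pos hj0 h₂ with ⟨c, d, rfl, rfl, e'⟩ | ⟨rfl, hc⟩
    · rw [pcomp_base e, pcomp_base e'] at h₃ ⊢
      have e₄ : Z.src i a = Z.tgt i c := PCell.base.inj h₄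
      have e₅ : Z.src i b = Z.tgt i d := PCell.base.inj h₅
      rw [pcomp_base e₄, pcomp_base e₅] at h₆ ⊢
      have e₃ := PCell.base.inj h₃
      have e₆ := PCell.base.inj h₆
      rw [pcomp_base e₃, pcomp_base e₆]
      exact congrArg PCell.base (Z.interchange i j a b c d e e' e₃ e₄ e₅ e₆ hij)
    · exfalso
      rcases composable_cases h₄ with ⟨_, _, -, rfl, -⟩ | ⟨-, _, _, h, -⟩ | ⟨-, _, h, -⟩ |
        ⟨-, _, h, -⟩ | ⟨h, -⟩
      · exact hc _ rfl
      all_goals exact absurd h (by simp)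
    · rcases composable_cases h₄ with ⟨_, _, rfl, -, -⟩ | ⟨rfl, z, _, rfl, -, -⟩ |
        ⟨-, _, -, h⟩ | ⟨-, _, -, h⟩ | ⟨-, h⟩
      · exact absurd rfl (ha _)
      · have e₀ : Z.src j c = Z.tgt j d := e'
        rw [pcomp_base e']
        simp [pcomp, Z.src_comp_le j 0 c d e' (Nat.zero_le j)]
        rw [← Z.src_tgt_lt 0 j d (Nat.pos_of_ne_zero hj0), ← e', Z.src_src,
          min_eq_left (Nat.zero_le j)]
      all_goals exact absurd h (by simp)
    · rcases composable_cases h₄ with ⟨_, _, rfl, -, -⟩ | ⟨-, _, _, -, rfl, -⟩ |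
        ⟨-, _, rfl, rfl⟩ | ⟨-, _, rfl, rfl⟩ | ⟨rfl, rfl⟩
      · exact absurd rfl (ha _)
      · exact absurd rfl (hc _)
      all_goals simp [pcomp]

/-- `Plus` on maps. -/
def pmap (f : Z ⟶ Z') : PCell Z → PCell Z'
  | .base a => .base (f.map a)
  | .arr z => .arr ⟨f.map z.1, by rw [← f.map_src, z.2]⟩
  | .top => .top

end Plus

/-- Cells of the category `0 < 1`. -/
inductive TwoCell : Type
  | zero
  | arrow
  | one
  deriving DecidableEq

/-- Sources in `0 < 1`. -/
def twoSrc (i : ℕ) : TwoCell → TwoCell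
  | .arrow => if i = 0 then .zero else .arrow
  | x => x

/-- Targets in `0 < 1`. -/
def twoTgt (i : ℕ) : TwoCell → TwoCell
  | .arrow => if i = 0 then .one else .arrow
  | x => x

/-- Composition in `0 < 1`. -/
def twoComp : TwoCell → TwoCell → TwoCell
  | .zero, _ => .zero
  | .one, y => y
  | .arrow, _ => .arrow

/-- The category `0 < 1` as an ω-category. -/
def Two : OCat where
  Cell := TwoCell
  src := twoSrc
  tgt := twoTgt
  comp _ a b _ := twoComp a b
  src_src i j a := by
    cases a <;> rcases eq_or_ne i 0 with rfl | hi <;> rcases eq_or_ne j 0 with rfl | hj <;>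
      simp_all [twoSrc]
  tgt_tgt i j a := by
    cases a <;> rcases eq_or_ne i 0 with rfl | hi <;> rcases eq_or_ne j 0 with rfl | hj <;>
      simp_all [twoTgt]
  src_tgt_lt i j a h := by
    cases a <;> simp_all [twoSrc, twoTgt, show j ≠ 0 by omega]
  src_tgt_ge i j a h := by
    cases a <;> rcases eq_or_ne j 0 with rfl | hj <;> simp_all [twoSrc, twoTgt] <;> omega
  tgt_src_lt i j a h := by
    cases a <;> simp_all [twoSrc, twoTgt, show j ≠ 0 by omega]
  tgt_src_ge i j a h := by
    cases a <;> rcases eq_or_ne j 0 with rfl | hj <;> simp_all [twoSrc, twoTgt] <;> omega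
  exists_dim a := ⟨1, by cases a <;> rfl⟩
  comp_unit_right i a h := by
    cases a <;> rcases eq_or_ne i 0 with rfl | hi <;> simp_all [twoSrc, twoTgt, twoComp]
  comp_unit_left i a h := by
    cases a <;> rcases eq_or_ne i 0 with rfl | hi <;> simp_all [twoSrc, twoTgt, twoComp]
  src_comp_le i j a b h hj := by
    cases a <;> cases b <;> rcases eq_or_ne i 0 with rfl | hi <;>
      simp_all [twoSrc, twoTgt, twoComp]
  tgt_comp_le i j a b h hj := by
    cases a <;> cases b <;> rcases eq_or_ne i 0 with rfl | hi <;>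
      simp_all [twoSrc, twoTgt, twoComp]
  src_comp_gt i j a b h h' hj := by
    cases a <;> cases b <;> rcases eq_or_ne i 0 with rfl | hi <;>
      simp_all [twoSrc, twoTgt, twoComp, show j ≠ 0 by omega]
  tgt_comp_gt i j a b h h' hj := by
    cases a <;> cases b <;> rcases eq_or_ne i 0 with rfl | hi <;>
      simp_all [twoSrc, twoTgt, twoComp, show j ≠ 0 by omega]
  assoc i a b c _ _ _ _ := by cases a <;> cases b <;> rfl
  interchange i j a b c d h₁ h₂ h₃ h₄ h₅ h₆ hij := by
    have hj0 : j ≠ 0 := by omega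
    have key : ∀ x y, twoSrc j x = twoTgt j y → x = y := by
      intro x y
      cases x <;> cases y <;> simp [twoSrc, twoTgt, hj0]
    obtain rfl := key a b h₁
    obtain rfl := key c d h₂
    cases a <;> cases c <;> rfl

lemma two_dimLE {n : ℕ∞} (hn : 1 ≤ n) : OCat.DimLE n Two := fun k a hk => by
  have : (k : ℕ) ≠ 0 := by
    rintro rfl
    exact not_le.2 (lt_of_lt_of_le zero_lt_one hn) (by exact_mod_cast hk)
  cases a <;> simp [Two, twoSrc, this]

namespace Plus

variable {Z : OCat}

/-- The side of a cell of `Plus Z`. -/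
def side : PCell Z → TwoCell
  | .base _ => .zero
  | .arr _ => .arrow
  | .top => .one

/-- The projection `Plus Z ⟶ Two`. -/
def proj (Z : OCat) : plus Z ⟶ Two where
  map := side
  map_src i a := by
    cases a <;> rcases eq_or_ne i 0 with rfl | hi <;> simp_all [plus, Two, psrc, twoSrc, side]
  map_tgt i a := by
    cases a <;> rcases eq_or_ne i 0 with rfl | hi <;> simp_all [plus, Two, ptgt, twoTgt, side]
  map_comp i a b h h' := by
    cases a <;> cases b <;> rcases eq_or_ne i 0 with rfl | hi <;>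
      simp_all [plus, Two, psrc, ptgt, pcomp, side, twoComp, twoSrc, twoTgt] <;>
      split_ifs <;> rfl

lemma plus_dimLE {n : ℕ∞} (hn : 1 ≤ n) (hZ : OCat.DimLE n Z) : OCat.DimLE n (plus Z) :=
  fun k a hk => by
    have hk0 : (k : ℕ) ≠ 0 := by
      rintro rfl
      exact not_le.2 (lt_of_lt_of_le zero_lt_one hn) (by exact_mod_cast hk)
    cases a with
    | base a => exact congrArg PCell.base (hZ k a hk)
    | arr z => exact psrc_arr_pos hk0 z
    | top => rfl

end Plus

end Vale.Agent.P213
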