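import Vale.Agent.P213.Nerve.Extend
import Vale.Agent.P213.Glue.Basic

/-!
# The part of a gluing over a sieve is the gluing over that sieve
-/

open CategoryTheory Opposite

namespace Vale.Agent.P213

noncomputable section

open Glue Plus

variable {n : ℕ∞} {B : Type} [PartialOrder B] {A S V : Set B}

/-- The full sub-n-category. -/
abbrev NCat.fullSub (X : NCat n) (p : X.obj.Cell → Prop) : NCat n :=
  ⟨OCat.fullSub X.obj p, OCat.fullSub_dimLE p X.property⟩

/-- The inclusion of a full sub-n-category. -/
abbrev NCat.fullSubIncl (X : NCat n) (p : X.obj.Cell → Prop) : NCat.fullSub X p ⟶ X :=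
  ObjectProperty.homMk (OCat.fullSubIncl X.obj p)

lemma NCat.fullSubIncl_map_injective (X : NCat n) (p : X.obj.Cell → Prop) (m : SimplexCategoryᵒᵖ) :
    Function.Injective (((NCat.nerveFunctor n).map (NCat.fullSubIncl X p)).app m) :=
  fun _ _ h => simplex_ext (OCat.hom_ext fun a => Subtype.ext
    (congrArg (fun t => (simplexHom t).map a) h))

/-- The simplices of a full sub-ω-category are those with all vertices in it. -/
theorem NCat.mem_range_fullSubIncl (X : NCat n) (p : X.obj.Cell → Prop) {m : SimplexCategoryᵒᵖ}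
    (x : ((NCat.nerveFunctor n).obj X).obj m) :
    x ∈ Set.range (((NCat.nerveFunctor n).map (NCat.fullSubIncl X p)).app m) ↔
      ∀ i, p (vtx x i) := by
  constructor
  · rintro ⟨y, rfl⟩ i
    have h := ((simplexHom y).map (ADC.vert i)).2.1
    rwa [show X.obj.src 0 ((simplexHom y).map (ADC.vert i)).1 =
      ((simplexHom y).map (ADC.vert i)).1 from congrArg Subtype.val (src_vtx y i)] at h
  · intro h
    refine ⟨simplexMk (X := OCat.fullSub X.obj p) (OCat.fullSubLift (simplexHom x) fun a => ?_),
      rfl⟩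
    rw [src_simplexHom, tgt_simplexHom]
    exact ⟨h _, h _⟩

/-- The part of a gluing over a sieve of objects lying over `S` is the gluing along `A ⊆ S`. -/
theorem exists_subGlue (hn : 1 ≤ n) (hAS : A ⊆ S) (hSV : S ⊆ V)
    (hS : ∀ a ∈ V, ∀ b ∈ S, a ≤ b → a ∈ S) {Z X : NCat n}
    (f : nv A ⟶ (NCat.nerveFunctor n).obj Z) (i : Z ⟶ X)
    (φ : nv V ⟶ (NCat.nerveFunctor n).obj X)
    (hX : IsGlue (NCat.nerveFunctor n) (nincl (hAS.trans hSV)) f i φ)
    (p : X.obj.Cell → Prop) (hp : ∀ a, p (X.obj.tgt 0 a) → p (X.obj.src 0 a))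
    (hpZ : ∀ z, p (i.hom.map z))
    (hpV : ∀ m (x : (nv V).obj m) j, p (vtx (φ.app m x) j) ↔ (nchain x j).1 ∈ S) :
    ∃ (iS : Z ⟶ NCat.fullSub X p) (φS : nv S ⟶ (NCat.nerveFunctor n).obj (NCat.fullSub X p)),
      iS ≫ NCat.fullSubIncl X p = i ∧
      φS ≫ (NCat.nerveFunctor n).map (NCat.fullSubIncl X p) = nincl hSV ≫ φ ∧
      IsGlue (NCat.nerveFunctor n) (nincl hAS) f iS φS := by
  let G := NCat.nerveFunctor n
  let iS : Z ⟶ NCat.fullSub X p := ObjectProperty.homMk (OCat.fullSubLift i.hom fun z => by
    rw [← i.hom.map_src, ← i.hom.map_tgt]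
    exact ⟨hpZ _, hpZ _⟩)
  have hex : ∀ m (y : (nv S).obj m), ∃ z, (G.map (NCat.fullSubIncl X p)).app m z =
      (nincl hSV ≫ φ).app m y := fun m y =>
    (NCat.mem_range_fullSubIncl X p _).2 fun j => (hpV m ((nincl hSV).app m y) j).2 (nchain y j).2
  choose z hz using hex
  let φS : nv S ⟶ G.obj (NCat.fullSub X p) :=
    { app := fun m => ↾(z m)
      naturality := fun m l θ => by
        refine ConcreteCategory.hom_ext _ _ fun y => NCat.fullSubIncl_map_injective X p l ?_
        change (G.map (NCat.fullSubIncl X p)).app l (z l _) =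
          (G.map (NCat.fullSubIncl X p)).app l ((G.obj _).map θ (z m y))
        rw [hz, NatTrans.naturality_apply (G.map (NCat.fullSubIncl X p)) θ, hz]
        exact NatTrans.naturality_apply (nincl hSV ≫ φ) θ y }
  have hiS : iS ≫ NCat.fullSubIncl X p = i := ObjectProperty.hom_ext _ (OCat.hom_ext fun _ => rfl)
  have hφS : φS ≫ G.map (NCat.fullSubIncl X p) = nincl hSV ≫ φ :=
    sset_hom_ext fun m y => hz m y
  refine ⟨iS, φS, hiS, hφS, ⟨?_, fun Y g ψ hgψ => ?_⟩⟩
  · refine sset_hom_ext fun m u => NCat.fullSubIncl_map_injective X p m ?_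
    refine (congrArg (fun t : Z ⟶ X => (G.map t).app m (f.app m u)) hiS).trans
      ((congrArg (fun t : nv A ⟶ G.obj X => t.app m u) hX.w).trans ?_)
    exact (hz m ((nincl hAS).app m u)).symm
  · let Yp : NCat n := ⟨plus Y.obj, plus_dimLE hn Y.property⟩
    let ι : Y ⟶ Yp := ObjectProperty.homMk (plusIncl Y.obj)
    let T : NCat n := ⟨Two, two_dimLE hn⟩
    let q : Yp ⟶ T := ObjectProperty.homMk (proj Y.obj)
    have hι : ∀ m, Function.Injective ((G.map ι).app m) := fun m _ _ h =>
      simplex_ext (OCat.hom_ext fun a => plusIncl_injective _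
        (congrArg (fun t => (simplexHom t).map a) h))
    let ψ' : nv V ⟶ G.obj Yp := Extend.ext hS ψ
    have hψ' : nincl hSV ≫ ψ' = ψ ≫ G.map ι := Extend.nincl_ext hS ψ hSV
    obtain ⟨h, ⟨hih, hφh⟩, huniq⟩ := hX.univ Yp (g ≫ ι) ψ' (by
      rw [G.map_comp, ← Category.assoc, hgψ, Category.assoc, ← hψ', ← Category.assoc,
        nincl_comp])
    have hχ : h ≫ q = ObjectProperty.homMk (chiOf p hp) := by
      refine hX.hom_ext ?_ ?_
      · rw [← Category.assoc, hih]
        refine ObjectProperty.hom_ext _ (OCat.hom_ext fun c => ?_)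
        show TwoCell.zero = chiMap p (i.hom.map c)
        exact ((chiMap_zero_iff p _).2 (by rw [← i.hom.map_tgt]; exact hpZ _)).symm
      · rw [G.map_comp, ← Category.assoc, hφh]
        refine sset_hom_ext fun m x => simplex_ext (OCat.hom_ext fun a => ?_)
        show side ((Extend.toPlus hS ψ x).map a) = chiMap p ((simplexHom (φ.app m x)).map a)
        rw [chiMap_of p (tgt_simplexHom _ a) (src_simplexHom _ a)]
        refine (congrArg (fun F : orientals.obj m.unop ⟶ Two => F.map a)
          (extend_proj (fibreToFullSub (Extend.InS S x) (Extend.inS_mono hS x) ≫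
            Extend.part hS ψ x))).trans ?_
        show chiMap (Extend.InS S x) a = _
        have e₂ : Extend.InS S x ((orientals.obj m.unop).src 0 a) ↔
            (nchain x (ADC.vsrc a)).1 ∈ S :=
          Iff.of_eq (congrArg (fun j => (nchain x j).1 ∈ S) (ADC.vtgt_face_zero a false))
        classical
        exact if_congr ((Extend.inS_tgt x a).trans (hpV m x _).symm) rfl
          (if_congr (e₂.trans (hpV m x _).symm) rfl rfl)
    have hbase : ∀ v, X.obj.src 0 v = v → p v → IsBase (h.hom.map v) := fun v hv hpv => by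
      refine (isBase_iff_side _).2 ((congrArg (fun t : X ⟶ T => t.hom.map v) hχ).trans ?_)
      refine (chiMap_zero_iff p v).2 ?_
      rwa [show X.obj.tgt 0 v = v by rw [← hv, X.obj.tgt_src_ge 0 0 v le_rfl]]
    obtain ⟨h₀, hh₀⟩ := exists_restrict h.hom hbase
    have hh : ObjectProperty.homMk h₀ ≫ ι = NCat.fullSubIncl X p ≫ h :=
      ObjectProperty.hom_ext _ hh₀
    refine ⟨ObjectProperty.homMk h₀, ⟨?_, ?_⟩, ?_⟩
    · refine ObjectProperty.hom_ext _ (OCat.hom_ext fun c => plusIncl_injective _ ?_)
      have := congrArg (fun t : Z ⟶ Yp => t.hom.map c)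
        (show iS ≫ ObjectProperty.homMk h₀ ≫ ι = g ≫ ι by
          rw [hh, ← Category.assoc, hiS, hih])
      exact this
    · refine sset_hom_ext fun m y => hι m ?_
      have := congrArg (fun t : nv S ⟶ G.obj Yp => t.app m y)
        (show φS ≫ G.map (ObjectProperty.homMk h₀ ≫ ι) = ψ ≫ G.map ι by
          rw [hh, G.map_comp, ← Category.assoc, hφS, Category.assoc, hφh, hψ'])
      rw [G.map_comp] at this
      exact this
    · rintro h₁ ⟨hi₁, hφ₁⟩
      let L : X ⟶ Yp := ObjectProperty.homMk (plusLift hp h₁.hom)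
      have hL : NCat.fullSubIncl X p ≫ L = h₁ ≫ ι :=
        ObjectProperty.hom_ext _ (fullSubIncl_plusLift hp h₁.hom)
      have hLh : L = h := huniq L ⟨by rw [← hiS, Category.assoc, hL, ← Category.assoc, hi₁], by
        refine sset_hom_ext fun m x => simplex_ext ?_
        show simplexHom (φ.app m x) ≫ plusLift hp h₁.hom = Extend.toPlus hS ψ x
        have hmem : ∀ a, p (X.obj.tgt 0 ((simplexHom (φ.app m x)).map a)) ↔
            Extend.InS S x a := fun a => by
          rw [tgt_simplexHom]
          exact hpV m x _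
        refine plus_hom_ext (fun a _ => ?_) fun a ha => ?_
        · exact (isBase_plusLift hp h₁.hom _).trans
            ((hmem a).trans (Extend.isBase_toPlus hS ψ x a).symm)
        · have ha' := (isBase_plusLift hp h₁.hom _).1 ha
          have hin := (hmem a).1 ha'
          refine (plusLift_apply hp h₁.hom _ ha').trans
            (Eq.trans ?_ (Extend.toPlus_of hS ψ x a hin).symm)
          refine congrArg (plusIncl Y.obj).map ?_
          let w := Extend.cl hS x (ADC.vtgt a) hin
          refine Eq.trans (congrArg h₁.hom.map ?_) (congrArg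
            (fun t : nv S ⟶ G.obj Y => (simplexHom (t.app m w)).map a) hφ₁)
          refine Subtype.ext ?_
          show (simplexHom (φ.app m x)).map a =
            (simplexHom ((φS ≫ G.map (NCat.fullSubIncl X p)).app m w)).map a
          rw [hφS]
          show _ = (simplexHom (φ.app m ((nincl hSV).app m w))).map a
          rw [show (nincl hSV).app m w = (nv V).map (clampHom (ADC.vtgt a)) x from
            nchain_ext fun j => rfl, Extend.app_map_apply, orientals_clamp _ a le_rfl]⟩
      refine ObjectProperty.hom_ext _ (OCat.hom_ext fun c => plusIncl_injective _ ?_)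
      have := congrArg (fun t : NCat.fullSub X p ⟶ Yp => t.hom.map c)
        (show h₁ ≫ ι = ObjectProperty.homMk h₀ ≫ ι by rw [hh, ← hL, hLh])
      exact this

end

end Vale.Agent.P213
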